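import Crest.Agent.R182.E.PD
import Crest.Agent.R182.D.Main

/-! R182/E: kernels of polynomial growth are finitely generated. -/

set_option autoImplicit false
set_option linter.unusedVariables false
set_option linter.unusedSectionVars false
open Set Filter Topology MeasureTheory Crest.GroupTheory
open scoped Pointwise commutatorElement

noncomputable section
namespace Crest.Agent.R182

open Crest.Geometry

theorem main_reps {K : Type*} [Group K] {Q : Subgroup K} {T : Set K} (hi : Q.relIndex (Subgroup.closure T) = 0) (n : ℕ) :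
    ∃ R : Finset K, (R : Set K) ⊆ insert 1 (T ∪ T⁻¹) ^ n ∧ 1 ∈ R ∧ R.card = n + 1 ∧
      ∀ r ∈ R, ∀ r' ∈ R, r⁻¹ * r' ∈ Q → r = r' := by
  classical
  induction n with
  | zero => exact ⟨{1}, by simp, by simp, rfl, by simp⟩
  | succ n ih =>
    obtain ⟨R, h1, h2, h3, h4⟩ := ih
    obtain ⟨s, hs, r, hr, hn⟩ : ∃ s ∈ T ∪ T⁻¹, ∃ r ∈ R, ∀ r' ∈ R, r'⁻¹ * (s * r) ∉ Q := by
      by_contra hn
      push Not at hn
      have h5 : ∀ s ∈ T ∪ T⁻¹, ∀ y, (∃ r ∈ (R : Set K), r⁻¹ * y ∈ Q) → ∃ r ∈ (R : Set K), r⁻¹ * (s * y) ∈ Q := by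
        rintro s hs y ⟨r, hr, hy⟩
        obtain ⟨r', hr', h'⟩ := hn s hs r hr
        exact ⟨r', hr', by simpa [mul_assoc] using mul_mem h' hy⟩
      refine ext_cover Q _ R.finite_toSet (fun x hx => ?_) hi
      induction hx using Subgroup.closure_induction_left with
      | one => exact ⟨1, h2, by simp⟩
      | mul_left x hx y _ ih => exact h5 x (Or.inl hx) y ih
      | inv_mul_cancel x hx y _ ih => exact h5 x⁻¹ (Or.inr (by simpa using hx)) y ih
    have h6 : s * r ∉ R := fun h => hn _ h (by simp)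
    refine ⟨insert (s * r) R, ?_, Finset.mem_insert_of_mem h2, by rw [Finset.card_insert_of_notMem h6, h3], ?_⟩
    · rw [Finset.coe_insert, pow_succ']
      exact insert_subset (Set.mul_mem_mul (Or.inr hs) (h1 hr)) fun x hx => ⟨1, Or.inl rfl, x, h1 hx, one_mul x⟩
    · simp only [Finset.mem_insert]
      rintro a (rfl | ha) b (rfl | hb) h
      · rfl
      · exact absurd (by simpa using inv_mem h) (hn b hb)
      · exact absurd h (hn a ha)
      · exact h4 a ha b hb h

/-- Otherwise, by induction on `j`, there are a finite symmetric `S ∋ 1` and `c > 0` with `c * n ^ j ≤ (S ^ n).ncard` for all `n`: if `closure S` has infinite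
index in `closure S'`, `S ⊆ S'`, then `S' ^ n` meets at least `n + 1` cosets of `closure S`, so `(n + 1) * (S ^ n).ncard ≤ (S' ^ (2 n)).ncard`. -/
theorem exists_L0 {K : Type*} [Group K] {D : ℕ} (h : PG K D) :
    ∃ L₀ : Subgroup K, L₀.FG ∧ ∀ L : Subgroup K, L₀ ≤ L → L.FG → L₀.relIndex L ≠ 0 := by
  by_contra hn
  push Not at hn
  have h1 : ∀ j : ℕ, ∃ S : Set K, S.Finite ∧ 1 ∈ S ∧ ∀ n : ℕ, (n + 1) ^ j ≤ (S ^ n).ncard := by
    intro j
    induction j with
    | zero =>
      refine ⟨{1}, finite_singleton _, rfl, fun n => ?_⟩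
      rw [pow_zero, Set.singleton_pow, Set.ncard_singleton]
    | succ j ih =>
      obtain ⟨S, hS, h1, h2⟩ := ih
      obtain ⟨L, -, ⟨T, rfl⟩, hi⟩ := hn (Subgroup.closure S) ((Subgroup.fg_iff _).2 ⟨S, rfl, hS⟩)
      have hU : (insert 1 ((T : Set K) ∪ (T : Set K)⁻¹) ∪ S).Finite :=
        ((T.finite_toSet.union T.finite_toSet.inv).insert 1).union hS
      refine ⟨_ ^ 2, grow_fin hU 2, Set.one_mem_pow (Or.inr h1), fun n => ?_⟩
      obtain ⟨R, hR, -, hc, hinj⟩ := main_reps hi n
      have h3 : ∀ x ∈ S ^ n, x ∈ Subgroup.closure S := fun x hx => Subgroup.pow_subset Subgroup.subset_closure hx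
      calc (n + 1) ^ (j + 1) ≤ ((R : Set K) ×ˢ (S ^ n)).ncard := by
            rw [Set.ncard_prod, Set.ncard_coe_finset, hc, pow_succ']
            exact Nat.mul_le_mul_left _ (h2 n)
        _ ≤ _ := by
            refine Set.ncard_le_ncard_of_injOn (fun p => p.1 * p.2) ?_ ?_ (grow_fin (grow_fin hU 2) n)
            · rintro ⟨r, x⟩ ⟨hr, hx⟩
              rw [← pow_mul, two_mul, pow_add]
              exact Set.mul_mem_mul (Set.pow_subset_pow_left subset_union_left (hR hr))
                (Set.pow_subset_pow_left subset_union_right hx)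
            · rintro ⟨r, x⟩ ⟨hr, hx⟩ ⟨r', x'⟩ ⟨hr', hx'⟩ (e : r * x = r' * x')
              obtain rfl : r = r' := hinj r hr r' hr' (by
                rw [← mul_inv_cancel_right r' x', ← e, mul_assoc, inv_mul_cancel_left]
                exact mul_mem (h3 x hx) (inv_mem (h3 x' hx')))
              rw [mul_left_cancel e]
  obtain ⟨S, hS, -, h2⟩ := h1 (D + 1)
  obtain ⟨C, hC⟩ := h S hS
  have := (h2 C).trans (hC C)
  rw [pow_succ'] at this
  exact (Nat.le_of_mul_le_mul_right this (by positivity)).not_gt (Nat.lt_succ_self C)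

theorem ker_fg {G : Type} [Group G] [Group.FG G] {n k D : ℕ} (hG : PD G n) (τ : G →* Multiplicative (Fin k → ℤ))
    (hτ : Function.Surjective τ) (hD : PG τ.ker D) : τ.ker.FG := by
  obtain ⟨L, hL, hi⟩ := exists_L0 hD
  have e := Subgroup.equivMapOfInjective L τ.ker.subtype Subtype.val_injective
  have : Group.FG L := (Group.fg_iff_subgroup_fg L).2 hL
  obtain ⟨r, hr⟩ := pd_of_vpc (gromov (hD.subgroup L))
  have hr' : PD (L.map τ.ker.subtype) r := hr.up e.toMonoidHom e.injective
    ⟨by rw [(MonoidHom.range_eq_top (f := e.toMonoidHom)).2 e.surjective]; simp⟩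
  have hfg : (L.map τ.ker.subtype).FG := by
    obtain ⟨s, hs⟩ := hL
    classical
    exact ⟨s.image Subtype.val, by rw [← hs, MonoidHom.map_closure]; simp⟩
  obtain ⟨X, -⟩ := exists_loc (K := τ.ker) (Subgroup.map_subtype_le L) hfg (fun L' hL' => by
    have h1 := hi (L'.subgroupOf τ.ker) (Subgroup.map_le_iff_le_comap.1 hL'.1) (by
      have : Group.FG L' := (Group.fg_iff_subgroup_fg L').2 hL'.2.2
      exact (Group.fg_iff_subgroup_fg _).1 (Group.fg_of_surjective
        (f := (Subgroup.subgroupOfEquivOfLe hL'.2.1).symm.toMonoidHom) (MulEquiv.surjective _)))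
    rwa [← Subgroup.relIndex_map_map_of_injective _ _ (f := τ.ker.subtype) Subtype.val_injective,
      Subgroup.map_subgroupOf_eq_of_le hL'.2.1] at h1) hr'
  obtain ⟨W, hW⟩ := exists_tr (A := ℚ) τ hτ X
  obtain ⟨W', hW'⟩ := exists_tr (A := ℤ) τ hτ X
  exact fg_of_tr X hW' (dim_eq X hW hG ▸ hG)

/-- `exists_free`, `ker_fg` in the finite index subgroup `L` (`PD.down`), `gromov`, `vpc_ext`, `vpc_of_finiteIndex` -/
theorem vpc_of_pd {G : Type} [Group G] [Group.FG G] {n D : ℕ} (hG : PD G n) (K : Subgroup G) (hK : ∀ a b : G, ⁅a, b⁆ ∈ K)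
    (hD : PG K D) : IsVirtuallyPolycyclic G := by
  obtain ⟨L, k, τ, hL, -, hs, hk⟩ := exists_free K hK
  have h1 : PG τ.ker D := hD.of_injective ((L.subtype.comp τ.ker.subtype).codRestrict K fun x => (hk _).1 x.2)
    fun x y e => Subtype.ext (Subtype.ext (congrArg (fun u : K => (u : G)) e))
  have : Group.FG τ.ker := (Group.fg_iff_subgroup_fg _).2
    (ker_fg (hG.down L.subtype Subtype.val_injective (by rwa [Subgroup.range_subtype])) τ hs h1)
  exact vpc_of_finiteIndex L (vpc_ext τ.ker (fun a b => (hk _).2 (hK a b)) (gromov h1))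

theorem main_vpc {G G' : Type*} [Group G] [Group G'] (e : G ≃* G') (h : IsVirtuallyPolycyclic G) :
    IsVirtuallyPolycyclic G' :=
  vpc_top_iff.2 (Subgroup.map_top_of_surjective e.toMonoidHom e.surjective ▸ (vpc_top_iff.1 h).map e.toMonoidHom)

theorem main_fi {G G' : Type*} [Group G] [Group G'] (e : G ≃* G') : e.toMonoidHom.range.FiniteIndex :=
  ⟨by rw [(MonoidHom.range_eq_top (f := e.toMonoidHom)).2 e.surjective]; simp⟩

/-- **Block E.**  Replace `H` and `P` by isomorphic groups in `Type` (`exists_small`; isomorphisms are quasi-isometries by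
`qi_of_finiteIndex`, `qi_comp`), `pd_of_vpc`, `eqv_of_qi`, `PDz.eqv`, `PD.down`, `vpc_of_pd`. -/
theorem endgame {P H : Type*} [Group P] [Group H] (S : Finset P) (hS : Subgroup.closure (S : Set P) = ⊤) (T : Finset H)
    (hT : Subgroup.closure (T : Set H) = ⊤) (hP : IsVirtuallyPolycyclic P) (F : H → P)
    (hF : IsQuasiIsometry (wordDist (T : Set H)) (wordDist (S : Set P)) F) (H₀ : Subgroup H) [H₀.FiniteIndex]
    (K : Subgroup H₀) (hK : ∀ a b : H₀, ⁅a, b⁆ ∈ K) {D : ℕ} (hD : PG K D) : IsVirtuallyPolycyclic H := by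
  have : Group.FG H := ⟨⟨T, hT⟩⟩
  have : Group.FG P := ⟨⟨S, hS⟩⟩
  obtain ⟨H', _, ⟨e⟩⟩ := exists_small H
  obtain ⟨P', _, ⟨e'⟩⟩ := exists_small P
  have : Group.FG H' := Group.fg_of_surjective (f := e.symm.toMonoidHom) e.symm.surjective
  have : Group.FG P' := Group.fg_of_surjective (f := e'.symm.toMonoidHom) e'.symm.surjective
  obtain ⟨T', hT'⟩ := Group.fg_def.1 ‹Group.FG H'›
  obtain ⟨S', hS'⟩ := Group.fg_def.1 ‹Group.FG P'›
  obtain ⟨d, z, hz⟩ := pd_of_vpc (main_vpc e'.symm hP)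
  obtain ⟨g, hg⟩ := eqv_of_qi hT' T'.finite_toSet hS' S'.finite_toSet (qi_comp hS' (qi_comp hS
    (qi_of_finiteIndex hT' T'.finite_toSet hT T.finite_toSet e.toMonoidHom e.injective (main_fi e)) hF)
    (qi_of_finiteIndex hS S.finite_toSet hS' S'.finite_toSet e'.symm.toMonoidHom e'.symm.injective (main_fi _)))
  have hi : (H₀.comap e.toMonoidHom).FiniteIndex :=
    ⟨by rw [Subgroup.index_comap_of_surjective _ e.surjective]; exact Subgroup.FiniteIndex.index_ne_zero⟩
  have h1 : PD (H₀.comap e.toMonoidHom) d :=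
    PD.down ⟨_, hz.eqv hg.symm⟩ (Subgroup.subtype _) Subtype.val_injective (by rwa [Subgroup.range_subtype])
  refine main_vpc e (vpc_of_finiteIndex _ (vpc_of_pd h1 (K.comap (e.toMonoidHom.subgroupComap H₀)) (fun a b => ?_)
    (hD.of_injective (MonoidHom.subgroupComap _ K) fun x y h => ?_)))
  · rw [Subgroup.mem_comap, map_commutatorElement]
    exact hK _ _
  · exact Subtype.ext (Subtype.ext (e.injective (congrArg (fun u : K => (u.1 : H)) h)))

end Crest.Agent.R182
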