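import Crest.Agent.R182.E.Simp

/-! R182/E: chains, cycles, boundaries, homotopy invariance. -/

set_option autoImplicit false
set_option linter.unusedVariables false
set_option linter.unusedSectionVars false
open Set Filter Topology MeasureTheory Crest.GroupTheory
open scoped Pointwise commutatorElement

noncomputable section
namespace Crest.Agent.R182

variable {Y Y' Y'' A A' : Type} [AddCommGroup A] [AddCommGroup A'] {X : Crs Y} {X' : Crs Y'} {X'' : Crs Y''} {q : ℕ}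
  {c c' : List Y → A} {f g : Y → Y'}

namespace Crs

theorem IsC.zero : X.IsC q (0 : List Y → A) := by
  exact ⟨∅, X.empty, fun l h => (h rfl).elim⟩

theorem IsC.common (h : X.IsC q c) {c' : List Y → A'} (h' : X.IsC q c') :
    ∃ E, X.ctrl E ∧ (∀ l, c l ≠ 0 → l ∈ Simp q E) ∧ ∀ l, c' l ≠ 0 → l ∈ Simp q E := by
  obtain ⟨E, hE, h⟩ := h
  obtain ⟨E', hE', h'⟩ := h'
  exact ⟨E ∪ E', X.union hE hE', fun l hl => Simp.mono subset_union_left (h l hl),
    fun l hl => Simp.mono subset_union_right (h' l hl)⟩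

theorem IsC.of_supp (h : X.IsC q c) {c' : List Y → A'} (hs : ∀ l, c' l ≠ 0 → c l ≠ 0) : X.IsC q c' := by
  obtain ⟨E, hE, h⟩ := h
  exact ⟨E, hE, fun l hl => h l (hs l hl)⟩

theorem IsC.add (h : X.IsC q c) (h' : X.IsC q c') : X.IsC q (c + c') := by
  obtain ⟨E, hE, h1, h2⟩ := h.common h'
  refine ⟨E, hE, fun l hl => ?_⟩
  by_cases h0 : c l = 0
  · exact h2 l (by simpa [h0] using hl)
  · exact h1 l h0

theorem IsC.neg (h : X.IsC q c) : X.IsC q (-c) := by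
  exact h.of_supp fun l hl => neg_ne_zero.1 hl

theorem IsC.sub (h : X.IsC q c) (h' : X.IsC q c') : X.IsC q (c - c') := by
  exact sub_eq_add_neg c c' ▸ h.add h'.neg

theorem IsC.map (h : X.IsC q c) (φ : A →+ A') : X.IsC q (φ ∘ c) := by
  exact h.of_supp fun l hl h0 => hl (by simp [h0])

theorem IsC.smul (h : X.IsC q c) (m : ℤ) : X.IsC q (m • c) := by
  exact h.of_supp fun l hl h0 => hl (by simp [h0])

theorem IsC.tens {z : List Y → ℤ} (h : X.IsC q z) (a : A) : X.IsC q (tens z a) := by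
  exact h.of_supp fun l hl => left_ne_zero_of_smul hl

theorem Ker.isC {q' : ℕ} {k : List Y → (List Y' →₀ ℤ)} (hk : X.Ker X' q q' k) (h : X.IsC q c) : X'.IsC q' (op k c) := by
  obtain ⟨E, hE, h⟩ := h
  obtain ⟨-, E', hE', h'⟩ := hk E hE
  refine ⟨E', hE', fun l' hl => ?_⟩
  obtain ⟨l, h1, h2⟩ := op_ne_zero hl
  exact h' l (h l h1) l' h2

theorem Ker.op_op {q' q'' : ℕ} {k : List Y → (List Y' →₀ ℤ)} {m : List Y' → (List Y'' →₀ ℤ)} (hk : X.Ker X' q q' k)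
    (hm : X'.Ker X'' q' q'' m) (h : X.IsC q c) : op m (op k c) = op (fun l => lext m (k l)) c := by
  obtain ⟨E, hE, h⟩ := h
  obtain ⟨h1, E', hE', h'⟩ := hk E hE
  exact op_comp h1 (hm E' hE').1 h' h

theorem Ker.comp {q' q'' : ℕ} {k : List Y → (List Y' →₀ ℤ)} {m : List Y' → (List Y'' →₀ ℤ)} (hk : X.Ker X' q q' k)
    (hm : X'.Ker X'' q' q'' m) : X.Ker X'' q q'' fun l => lext m (k l) := by
  intro E hE
  obtain ⟨h1, E', hE', h'⟩ := hk E hE
  obtain ⟨h2, E'', hE'', h''⟩ := hm E' hE'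
  refine ⟨h1.comp h2 h', E'', hE'', fun l hl l'' h0 => ?_⟩
  obtain ⟨l', h3, h4⟩ := lext_ne_zero h0
  exact h'' l' (h' l hl l' h3) l'' h4

theorem chaina_fin (hf : X.Mor X' f) {E : Set (Y × Y)} (hE : X.ctrl E) (q : ℕ) (l' : List Y') :
    {l | l ∈ Simp q E ∧ ∃ x ∈ l, f x ∈ l'}.Finite :=
  (l'.finite_toSet.biUnion fun y _ => ((hf E hE).2 y).biUnion fun x _ => finite_Simp X hE q x).subset
    fun l ⟨hl, x, hx, hy⟩ => mem_biUnion (x := f x) hy (mem_biUnion (x := x) ⟨hl.2 x hx x hx, rfl⟩ ⟨hl, hx⟩)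

/-- also for `q = 0`, where `bd'` vanishes -/
theorem ker_bd (X : Crs Y) (q : ℕ) : X.Ker X q (q - 1) bd' := by
  refine fun E hE => ⟨fun l' => ?_, E, hE, fun l hl l' h0 => ?_⟩
  · refine (l'.finite_toSet.biUnion fun x _ => finite_Simp X hE q x).subset fun l ⟨hl, h0⟩ => ?_
    obtain ⟨-, h2, h3⟩ := bd'_ne_zero h0
    obtain ⟨x, hx⟩ := List.exists_mem_of_ne_nil _ h2
    exact mem_biUnion (x := x) hx ⟨hl, h3 x hx⟩
  · obtain ⟨h1, h2, h3⟩ := bd'_ne_zero h0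
    have := List.length_pos_iff.2 h2
    exact ⟨by have := hl.1; omega, fun x hx y hy => hl.2 x (h3 x hx) y (h3 y hy)⟩

theorem Mor.ker (hf : X.Mor X' f) (q : ℕ) : X.Ker X' q q (mp f) := by
  refine fun E hE => ⟨fun l' => (chaina_fin hf hE q l').subset fun l ⟨hl, h0⟩ => ⟨hl, ?_⟩, _, (hf E hE).1,
    fun l hl l' h0 => ?_⟩
  · obtain ⟨x, hx⟩ := List.exists_mem_of_length_eq_add_one hl.1
    exact ⟨x, hx, mp_ne_zero.1 h0 ▸ List.mem_map_of_mem hx⟩
  · obtain rfl := mp_ne_zero.1 h0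
    refine ⟨(List.length_map _).trans hl.1, fun y hy y' hy' => ?_⟩
    obtain ⟨x, hx, rfl⟩ := List.mem_map.1 hy
    obtain ⟨x', hx', rfl⟩ := List.mem_map.1 hy'
    exact ⟨(x, x'), hl.2 x hx x' hx', rfl⟩

theorem ker_pr (hf : X.Mor X' f) (hg : X.Mor X' g) (h : X.Close X' f g) (q : ℕ) : X.Ker X' q (q + 1) (pr f g) := by
  refine fun E hE => ⟨fun l' => (chaina_fin hf hE q l').subset fun l ⟨hl, h0⟩ => ⟨hl, (pr_ne_zero h0).2.2⟩, _,
    X'.union (X'.union (hf E hE).1 (hg E hE).1) (X'.union (h E hE) (X'.symm (h E hE))), fun l hl l' h0 => ?_⟩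
  obtain ⟨h1, h2, -⟩ := pr_ne_zero h0
  refine ⟨by rw [h1, hl.1], fun y hy y' hy' => ?_⟩
  obtain ⟨x, hx, rfl | rfl⟩ := h2 y hy <;> obtain ⟨x', hx', rfl | rfl⟩ := h2 y' hy'
  exacts [Or.inl (Or.inl ⟨(x, x'), hl.2 x hx x' hx', rfl⟩), Or.inr (Or.inl ⟨(x, x'), hl.2 x hx x' hx', rfl⟩),
    Or.inr (Or.inr ⟨(x', x), hl.2 x' hx' x hx, rfl⟩), Or.inl (Or.inr ⟨(x, x'), hl.2 x hx x' hx', rfl⟩)]

theorem Mor.id (X : Crs Y) : X.Mor X id := by
  exact fun E hE => ⟨by simpa using hE, fun y => (finite_singleton y).subset fun x hx => hx.2⟩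

theorem Mor.comp {g : Y' → Y''} (hf : X.Mor X' f) (hg : X'.Mor X'' g) : X.Mor X'' (g ∘ f) := by
  refine fun E hE => ⟨X''.mono (hg _ (hf E hE).1).1 ?_, fun z => ?_⟩
  · rintro _ ⟨p, hp, rfl⟩
    exact ⟨_, ⟨p, hp, rfl⟩, rfl⟩
  · exact (((hg _ (hf E hE).1).2 z).biUnion fun y _ => (hf E hE).2 y).subset fun x hx =>
      mem_biUnion (x := f x) ⟨⟨(x, x), hx.1, rfl⟩, hx.2⟩ ⟨hx.1, rfl⟩

theorem Eqv.symm {g : Y' → Y} (h : X.Eqv X' f g) : X'.Eqv X g f := ⟨h.mor', h.mor, h.right, h.left⟩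

theorem IsC.dd (h : X.IsC (q + 1) c) : X.IsC q (dd c) := (ker_bd X (q + 1)).isC h

theorem IsC.dd_zero (h : X.IsC 0 c) : Crest.Agent.R182.dd c = 0 := by
  obtain ⟨E, -, h⟩ := h
  refine (op_congr (k' := 0) fun l hl => ?_).trans (op_kzero c)
  exact if_pos (h l hl).1.le

theorem IsC.dd_dd (h : X.IsC q c) : Crest.Agent.R182.dd (Crest.Agent.R182.dd c) = 0 := by
  refine ((ker_bd X q).op_op (ker_bd X (q - 1)) h).trans ?_
  simp only [bd'_bd']
  exact op_kzero c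

theorem IsC.dd_add (h : X.IsC q c) (h' : X.IsC q c') :
    Crest.Agent.R182.dd (c + c') = Crest.Agent.R182.dd c + Crest.Agent.R182.dd c' := by
  obtain ⟨E, hE, h1, h2⟩ := h.common h'
  exact op_add (ker_bd X q E hE).1 h1 h2

theorem IsC.dd_sub (h : X.IsC q c) (h' : X.IsC q c') :
    Crest.Agent.R182.dd (c - c') = Crest.Agent.R182.dd c - Crest.Agent.R182.dd c' := by
  obtain ⟨E, hE, h1, h2⟩ := h.common h'
  exact op_sub (ker_bd X q E hE).1 h1 h2

theorem IsC.dd_map (h : X.IsC q c) (φ : A →+ A') : Crest.Agent.R182.dd (φ ∘ c) = φ ∘ Crest.Agent.R182.dd c := by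
  obtain ⟨E, hE, h1⟩ := h
  exact op_map φ (ker_bd X q E hE).1 h1

theorem IsC.dd_smul (h : X.IsC q c) (m : ℤ) : Crest.Agent.R182.dd (m • c) = m • Crest.Agent.R182.dd c := by
  exact h.dd_map (DistribSMul.toAddMonoidHom A m)

theorem IsC.pu (h : X.IsC q c) (hf : X.Mor X' f) : X'.IsC q (pu f c) := (hf.ker q).isC h

theorem IsC.pu_add (h : X.IsC q c) (h' : X.IsC q c') (hf : X.Mor X' f) :
    Crest.Agent.R182.pu f (c + c') = Crest.Agent.R182.pu f c + Crest.Agent.R182.pu f c' := by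
  obtain ⟨E, hE, h1, h2⟩ := h.common h'
  exact op_add (hf.ker q E hE).1 h1 h2

theorem IsC.pu_sub (h : X.IsC q c) (h' : X.IsC q c') (hf : X.Mor X' f) :
    Crest.Agent.R182.pu f (c - c') = Crest.Agent.R182.pu f c - Crest.Agent.R182.pu f c' := by
  obtain ⟨E, hE, h1, h2⟩ := h.common h'
  exact op_sub (hf.ker q E hE).1 h1 h2

theorem IsC.pu_map (h : X.IsC q c) (hf : X.Mor X' f) (φ : A →+ A') :
    Crest.Agent.R182.pu f (φ ∘ c) = φ ∘ Crest.Agent.R182.pu f c := by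
  obtain ⟨E, hE, h1⟩ := h
  exact op_map φ (hf.ker q E hE).1 h1

theorem IsC.pu_smul (h : X.IsC q c) (hf : X.Mor X' f) (m : ℤ) :
    Crest.Agent.R182.pu f (m • c) = m • Crest.Agent.R182.pu f c := by
  exact h.pu_map hf (DistribSMul.toAddMonoidHom A m)

theorem IsC.pu_tens {z : List Y → ℤ} (h : X.IsC q z) (hf : X.Mor X' f) (a : A) :
    Crest.Agent.R182.pu f (Crest.Agent.R182.tens z a) = Crest.Agent.R182.tens (Crest.Agent.R182.pu f z) a := by
  exact h.pu_map hf (zmultiplesHom A a)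

theorem IsC.dd_pu (h : X.IsC q c) (hf : X.Mor X' f) :
    Crest.Agent.R182.dd (Crest.Agent.R182.pu f c) = Crest.Agent.R182.pu f (Crest.Agent.R182.dd c) := by
  refine ((hf.ker q).op_op (ker_bd X' q) h).trans (Eq.trans ?_ ((ker_bd X q).op_op (hf.ker (q - 1)) h).symm)
  simp only [bd'_mp]

theorem IsC.pu_pu {g : Y' → Y''} (h : X.IsC q c) (hf : X.Mor X' f) (hg : X'.Mor X'' g) :
    Crest.Agent.R182.pu g (Crest.Agent.R182.pu f c) = Crest.Agent.R182.pu (g ∘ f) c := by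
  refine ((hf.ker q).op_op (hg.ker q) h).trans ?_
  simp only [mp_mp]
  rfl

end Crs

theorem dd_zero : dd (0 : List Y → A) = 0 := op_zero _
theorem pu_zero (f : Y → Y') : pu f (0 : List Y → A) = 0 := op_zero _

theorem pu_id (c : List Y → A) : pu id c = c := by
  exact (op_congr fun l _ => mp_id l).trans (op_single c)

theorem pu_equiv (e : Y ≃ Y') (c : List Y → A) : pu e c = fun l => c (l.map e.symm) := by
  funext l
  have h := op_single_apply (List.map_injective_iff.2 e.injective) c (l.map e.symm)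
  rw [List.map_map, e.self_comp_symm, List.map_id] at h
  exact h

theorem pu_apply_map (hf : Function.Injective f) (c : List Y → A) (l : List Y) : pu f c (l.map f) = c l := by
  exact op_single_apply (List.map_injective_iff.2 hf) c l

theorem pu_ne_zero {l' : List Y'} (h : pu f c l' ≠ 0) : ∃ l, c l ≠ 0 ∧ l' = l.map f := by
  obtain ⟨l, h1, h2⟩ := op_ne_zero h
  exact ⟨l, h1, mp_ne_zero.1 h2⟩

namespace Crs

theorem IsZ.sub (h : X.IsZ q c) (h' : X.IsZ q c') : X.IsZ q (c - c') := by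
  exact ⟨h.1.sub h'.1, by rw [h.1.dd_sub h'.1, h.2, h'.2, sub_zero]⟩

theorem IsZ.add (h : X.IsZ q c) (h' : X.IsZ q c') : X.IsZ q (c + c') := by
  exact ⟨h.1.add h'.1, by rw [h.1.dd_add h'.1, h.2, h'.2, add_zero]⟩

theorem IsZ.map (h : X.IsZ q c) (φ : A →+ A') : X.IsZ q (φ ∘ c) := by
  exact ⟨h.1.map φ, by rw [h.1.dd_map φ, h.2]; funext l; simp⟩

theorem IsZ.smul (h : X.IsZ q c) (m : ℤ) : X.IsZ q (m • c) := by
  exact ⟨h.1.smul m, by rw [h.1.dd_smul m, h.2, smul_zero]⟩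

theorem IsZ.tens {z : List Y → ℤ} (h : X.IsZ q z) (a : A) : X.IsZ q (tens z a) := by
  exact h.map (zmultiplesHom A a)

theorem IsZ.pu (h : X.IsZ q c) (hf : X.Mor X' f) : X'.IsZ q (pu f c) := by
  exact ⟨h.1.pu hf, by rw [h.1.dd_pu hf, h.2, pu_zero]⟩

theorem IsB.zero : X.IsB q (0 : List Y → A) := by
  exact ⟨0, IsC.zero, Crest.Agent.R182.dd_zero⟩

theorem IsB.isZ (h : X.IsB q c) : X.IsZ q c := by
  obtain ⟨b, hb, rfl⟩ := h
  exact ⟨hb.dd, hb.dd_dd⟩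

theorem IsB.add (h : X.IsB q c) (h' : X.IsB q c') : X.IsB q (c + c') := by
  obtain ⟨b, hb, rfl⟩ := h
  obtain ⟨b', hb', rfl⟩ := h'
  exact ⟨b + b', hb.add hb', hb.dd_add hb'⟩

theorem IsB.neg (h : X.IsB q c) : X.IsB q (-c) := by
  obtain ⟨b, hb, rfl⟩ := h
  exact ⟨-b, hb.neg, op_neg _ _⟩

theorem IsB.sub (h : X.IsB q c) (h' : X.IsB q c') : X.IsB q (c - c') := by
  rw [sub_eq_add_neg]
  exact h.add h'.neg

theorem IsB.symm (h : X.IsB q (c - c')) : X.IsB q (c' - c) := by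
  rw [← neg_sub]
  exact h.neg

theorem IsB.trans {c'' : List Y → A} (h : X.IsB q (c - c')) (h' : X.IsB q (c' - c'')) : X.IsB q (c - c'') := by
  rw [← sub_add_sub_cancel c c' c'']
  exact h.add h'

theorem IsB.of_sub (h : X.IsB q (c - c')) (h' : X.IsB q c') : X.IsB q c := by
  rw [← sub_add_cancel c c']
  exact h.add h'

theorem IsB.map (h : X.IsB q c) (φ : A →+ A') : X.IsB q (φ ∘ c) := by
  obtain ⟨b, hb, rfl⟩ := h
  exact ⟨φ ∘ b, hb.map φ, hb.dd_map φ⟩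

theorem IsB.smul (h : X.IsB q c) (m : ℤ) : X.IsB q (m • c) := by
  obtain ⟨b, hb, rfl⟩ := h
  exact ⟨m • b, hb.smul m, hb.dd_smul m⟩

theorem IsB.tens {z : List Y → ℤ} (h : X.IsB q z) (a : A) : X.IsB q (tens z a) := by
  exact h.map (zmultiplesHom A a)

theorem IsB.pu (h : X.IsB q c) (hf : X.Mor X' f) : X'.IsB q (pu f c) := by
  obtain ⟨b, hb, rfl⟩ := h
  exact ⟨_, hb.pu hf, hb.dd_pu hf⟩

theorem IsB.pu_sub (h : X.IsB q (c - c')) (hc : X.IsC q c) (hc' : X.IsC q c') (hf : X.Mor X' f) :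
    X'.IsB q (Crest.Agent.R182.pu f c - Crest.Agent.R182.pu f c') := by
  rw [← hc.pu_sub hc' hf]
  exact h.pu hf

/-- `dd (op (pr f g) c) = pu g c - pu f c` for a cycle: `Ker.op_op`, `op_kadd`, `bd'_pr`; `op (pr f g) (dd c) = 0` (treat `q = 0` separately) -/
theorem Close.isB (h : X.Close X' f g) (hf : X.Mor X' f) (hg : X.Mor X' g) (hc : X.IsZ q c) :
    X'.IsB q (pu g c - pu f c) := by
  have k₁ := ker_pr hf hg h q
  have k₂ := ker_pr hf hg h (q - 1)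
  refine ⟨op (pr f g) c, k₁.isC hc.1, ?_⟩
  have e₁ := k₁.op_op (ker_bd X' (q + 1)) hc.1
  have e₂ := (ker_bd X q).op_op k₂ hc.1
  obtain ⟨⟨E, hE, hcE⟩, hz⟩ := hc
  have e₃ := op_kadd ((k₁.comp (ker_bd X' (q + 1))) E hE).1 (((ker_bd X q).comp k₂) E hE).1 hcE
  have e₄ := op_ksub (hg.ker q E hE).1 (hf.ker q E hE).1 hcE
  rw [show op bd' c = 0 from hz, op_zero] at e₂
  rw [← e₁, ← e₂, add_zero] at e₃
  refine e₃.symm.trans ((op_congr fun l hl => ?_).trans e₄)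
  refine bd'_pr f g fun e => ?_
  have := (hcE l hl).1
  rw [e] at this
  simp at this

theorem PDz.eqv {g : Y' → Y} {d : ℕ} {z : List Y → ℤ} (h : X.PDz d z) (e : X.Eqv X' f g) : X'.PDz d (pu f z) := by
  have key : ∀ {A : Type} [AddCommGroup A] {q : ℕ} {c : List Y' → A}, X'.IsZ q c →
      X'.IsB q (c - Crest.Agent.R182.pu f (Crest.Agent.R182.pu g c)) := fun hc => by
    have := e.right.isB (Mor.id X') (e.mor'.comp e.mor) hc
    rw [pu_id] at this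
    rw [hc.1.pu_pu e.mor' e.mor]
    exact this.symm
  refine ⟨h.cyc.pu e.mor, fun A _ q c hq hc => ?_, fun A _ c hc => ?_, fun A _ a ha => ?_⟩
  · exact (key hc).of_sub ((h.van A q _ hq (hc.pu e.mor')).pu e.mor)
  · obtain ⟨a, ha⟩ := h.surj A _ (hc.pu e.mor')
    refine ⟨a, (key hc).trans ?_⟩
    rw [← h.cyc.1.pu_tens e.mor a]
    exact ha.pu_sub (hc.pu e.mor').1 (h.cyc.1.tens a) e.mor
  · have hz := h.cyc.tens a
    have h₁ := e.left.isB (Mor.id X) (e.mor.comp e.mor') hz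
    rw [pu_id, ← hz.1.pu_pu e.mor e.mor', h.cyc.1.pu_tens e.mor a] at h₁
    exact h.inj A a (h₁.symm.of_sub (ha.pu e.mor'))

end Crs

end Crest.Agent.R182
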