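import Crest.Agent.R182.E.Grp

/-! R182/E: chains controlled by a subgroup are chains on the subgroup with bigger coefficients. -/

set_option autoImplicit false
set_option linter.unusedVariables false
set_option linter.unusedSectionVars false
open Set Filter Topology MeasureTheory Crest.GroupTheory
open scoped Pointwise commutatorElement

noncomputable section
namespace Crest.Agent.R182

variable {G A : Type} [Group G] [AddCommGroup A] {L : Subgroup G} {q : ℕ} {c c' : List G → A}

theorem cur_sub (c c' : List G → A) : cur L (c - c') = cur L c - cur L c' := rfl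

theorem cur_a (h : (gc L).IsC q c) {B : Type} [AddCommGroup B] {c' : List L → B}
    (hs : ∀ l, c' l ≠ 0 → ∃ g : G, c (l.map fun u : L => g * (u : G)) ≠ 0) : (gc (⊤ : Subgroup L)).IsC q c' := by
  obtain ⟨F, h1, -, h3⟩ := gc_isC.1 h
  refine gc_isC.2 ⟨Subtype.val ⁻¹' F, h1.preimage Subtype.val_injective.injOn, fun _ _ => trivial, fun l hl => ?_⟩
  obtain ⟨g, hg⟩ := hs l hl
  refine ⟨by simpa using (h3 _ hg).1, fun x hx y hy => ?_⟩
  simpa [mul_assoc] using (h3 _ hg).2 _ (List.mem_map_of_mem hx) _ (List.mem_map_of_mem hy)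

theorem cur_i (g : G) : Function.Injective fun u : L => g * (u : G) := fun _ _ e => Subtype.ext (mul_left_cancel e)

theorem cur_r (h : (gc L).IsC q c) (g : G) (l : List G) (hl : c l ≠ 0) (h1 : ∃ y ∈ l, y ∈ range fun u : L => g * (u : G)) :
    ∀ y ∈ l, y ∈ range fun u : L => g * (u : G) := by
  obtain ⟨F, -, h2, h3⟩ := gc_isC.1 h
  obtain ⟨_, hx, u, rfl⟩ := h1
  exact fun y hy => ⟨u * ⟨_, h2 ((h3 l hl).2 _ hx y hy)⟩, by simp [mul_assoc]⟩

theorem cur_isC (h : (gc L).IsC q c) : (gc (⊤ : Subgroup L)).IsC q (cur L c) := by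
  exact cur_a h fun l hl => (Function.ne_iff.1 hl).elim fun j hj => ⟨_, hj⟩

/-- `dd_comap` for `u ↦ j.out * u`, and `IsC.dd_map` for the evaluation at `j` -/
theorem cur_dd (h : (gc L).IsC q c) : cur L (dd c) = dd (cur L c) := by
  funext l j
  exact (dd_comap (cur_i j.out) (cur_r h _) l).trans (congrFun ((cur_isC h).dd_map (Pi.evalAddMonoidHom (fun _ => A) j)) l)

theorem cur_inj (h : (gc L).IsC q c) (h0 : cur L c = 0) : c = 0 := by
  refine funext fun l => by_contra fun hl => ?_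
  obtain ⟨F, -, -, h3⟩ := gc_isC.1 h
  obtain ⟨x, hx⟩ := List.exists_mem_of_length_eq_add_one (h3 l hl).1
  obtain ⟨u, hu⟩ := QuotientGroup.mk_out_eq_mul L x
  obtain ⟨l', rfl⟩ : l ∈ range (List.map fun u : L => (x : G ⧸ L).out * (u : G)) := by
    rw [range_list_map]
    exact cur_r h _ l hl ⟨x, hx, u⁻¹, by simp [hu]⟩
  exact hl (congrFun (congrFun h0 l') _)

/-- `c l = ∑ᶠ j, pu (fun u : L => j.out * u) (fun l => c' l j) l` (at most one nonzero term), or directly by cases on `l` -/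
theorem cur_surj {c' : List L → (G ⧸ L → A)} (h : (gc (⊤ : Subgroup L)).IsC q c') : ∃ c, (gc L).IsC q c ∧ cur L c = c' := by
  obtain ⟨F, h1, -, h3⟩ := gc_isC.1 h
  let Φ : List L × (G ⧸ L) → List G := fun p => p.1.map fun u : L => p.2.out * (u : G)
  have hΦ : Function.FactorsThrough (fun p : List L × (G ⧸ L) => c' p.1 p.2) Φ := by
    rintro ⟨l, j⟩ ⟨l', j'⟩ e
    rcases l with _ | ⟨x, l⟩ <;> rcases l' with _ | ⟨x', l'⟩
    · simp [show c' [] = 0 from by_contra fun h0 => by simpa using (h3 _ h0).1]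
    · cases e
    · cases e
    · obtain rfl : j = j' := by
        simpa using congrArg (QuotientGroup.mk (s := L)) (List.cons.inj e).1
      exact congrArg (c' · j) (List.map_injective_iff.2 (cur_i j.out) e)
  refine ⟨Function.extend Φ (fun p => c' p.1 p.2) 0, gc_isC.2 ⟨Subtype.val '' F, h1.image _, ?_, fun l hl => ?_⟩,
    funext fun l => funext fun j => hΦ.extend_apply _ (l, j)⟩
  · rintro _ ⟨u, -, rfl⟩
    exact u.2
  · obtain ⟨p, rfl⟩ : ∃ p, Φ p = l := by_contra fun e => hl (Function.extend_apply' _ _ _ e)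
    rw [hΦ.extend_apply] at hl
    have h4 := h3 p.1 fun e => hl (by rw [e]; rfl)
    refine ⟨by simpa [Φ] using h4.1, fun x hx y hy => ?_⟩
    obtain ⟨u, hu, rfl⟩ := List.mem_map.1 hx
    obtain ⟨w, hw, rfl⟩ := List.mem_map.1 hy
    exact ⟨_, h4.2 u hu w hw, by simp [mul_assoc]⟩

theorem cur_isZ (h : (gc L).IsZ q c) : (gc (⊤ : Subgroup L)).IsZ q (cur L c) := by
  exact ⟨cur_isC h.1, by rw [← cur_dd h.1, h.2]; rfl⟩

theorem cur_isB (h : (gc L).IsC q c) : (gc (⊤ : Subgroup L)).IsB q (cur L c) ↔ (gc L).IsB q c := by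
  refine ⟨fun ⟨b', h1, h2⟩ => ?_, fun ⟨b, h1, h2⟩ => ⟨cur L b, cur_isC h1, by rw [← cur_dd h1, h2]⟩⟩
  obtain ⟨b, hb, rfl⟩ := cur_surj h1
  exact ⟨b, hb, sub_eq_zero.1 (cur_inj (hb.dd.sub h) (by rw [cur_sub, cur_dd hb, h2, sub_self]))⟩

/-- restriction to `L` -/
theorem res_isC (h : (gc L).IsC q c) : (gc (⊤ : Subgroup L)).IsC q fun l => c (l.map Subtype.val) := by
  exact cur_a h fun l hl => ⟨1, by simpa using hl⟩

theorem res_dd (h : (gc L).IsC q c) : (fun l : List L => dd c (l.map Subtype.val)) = dd fun l : List L => c (l.map Subtype.val) := by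
  funext l
  simpa only [one_mul] using dd_comap (cur_i 1) (cur_r h 1) l

theorem On.pu_res (h : On L c) : pu (Subtype.val : L → G) (fun l => c (l.map Subtype.val)) = c := by
  funext l
  by_cases hl : l ∈ range (List.map (Subtype.val : L → G))
  · obtain ⟨l', rfl⟩ := hl
    exact pu_apply_map Subtype.val_injective _ l'
  · refine (op_single_of_notMem _ hl).trans (Eq.symm (by_contra fun e => hl ?_))
    rw [range_list_map]
    exact fun x hx => ⟨⟨x, h l e x hx⟩, rfl⟩

theorem on_pu (c : List L → A) : On L (pu (Subtype.val : L → G) c) := by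
  intro l hl x hx
  obtain ⟨l', -, rfl⟩ := pu_ne_zero hl
  obtain ⟨u, -, rfl⟩ := List.mem_map.1 hx
  exact u.2

end Crest.Agent.R182
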