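import Crest.Agent.R182.A.Defs

/-! R182/E: coarse locally finite homology: definitions (FROZEN; owner helper36).
Simplices are lists, chains are arbitrary functions on lists supported on controlled simplices of one length; all chain level operators are
op k for a kernel k (a finite integral chain k l for every simplex l).  Route: E/Op, E/Simp, E/Chain (functoriality, prism), E/Grp, E/Cur,
E/Fund, E/Loc (locally Poincare duality subgroups), E/Wang, E/Tower, E/PD (virtually polycyclic groups are PD), E/Fin, E/Main. -/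

set_option autoImplicit false
set_option linter.unusedVariables false
set_option linter.unusedSectionVars false
open Set Filter Topology MeasureTheory Crest.GroupTheory
open scoped Pointwise commutatorElement

noncomputable section
namespace Crest.Agent.R182

section Ker
variable {I I' A : Type} [AddCommGroup A]

/-- the operator on functions defined by a kernel -/
def op (k : I → (I' →₀ ℤ)) (c : I → A) : I' → A := fun j => ∑ᶠ i, k i j • c i

/-- the kernel is proper on `s` -/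
def Ok (k : I → (I' →₀ ℤ)) (s : Set I) : Prop := ∀ j, {i | i ∈ s ∧ k i j ≠ 0}.Finite

/-- linear extension of a kernel to finite chains -/
def lext (k : I → (I' →₀ ℤ)) : (I →₀ ℤ) →ₗ[ℤ] (I' →₀ ℤ) := Finsupp.linearCombination ℤ k

/-- integral chain times coefficient -/
def tens (z : I → ℤ) (a : A) : I → A := fun i => z i • a

end Ker

section Simp
variable {Y Y' : Type}

/-- augmented boundary -/
def bd : List Y → (List Y →₀ ℤ)
  | [] => 0
  | x :: l => Finsupp.single l 1 - (bd l).mapDomain (x :: ·)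

/-- boundary -/
def bd' (l : List Y) : List Y →₀ ℤ := if l.length ≤ 1 then 0 else bd l

/-- push forward -/
def mp (f : Y → Y') (l : List Y) : List Y' →₀ ℤ := Finsupp.single (l.map f) 1

/-- prism -/
def pr (f g : Y → Y') : List Y → (List Y' →₀ ℤ)
  | [] => 0
  | x :: l => Finsupp.single (f x :: (x :: l).map g) 1 - (pr f g l).mapDomain (f x :: ·)

/-- `E`-small `q`-simplices -/
def Simp (q : ℕ) (E : Set (Y × Y)) : Set (List Y) := {l | l.length = q + 1 ∧ ∀ x ∈ l, ∀ y ∈ l, (x, y) ∈ E}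

end Simp

/-- a locally finite coarse structure (the diagonal need not be controlled) -/
structure Crs (Y : Type) where
  ctrl : Set (Y × Y) → Prop
  empty : ctrl ∅
  mono : ∀ {E E'}, ctrl E' → E ⊆ E' → ctrl E
  union : ∀ {E E'}, ctrl E → ctrl E' → ctrl (E ∪ E')
  symm : ∀ {E}, ctrl E → ctrl (Prod.swap ⁻¹' E)
  fin : ∀ {E}, ctrl E → ∀ x, {y | (x, y) ∈ E}.Finite

/-- boundary operator -/
def dd {Y A : Type} [AddCommGroup A] (c : List Y → A) : List Y → A := op bd' c

/-- push forward of chains -/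
def pu {Y Y' A : Type} [AddCommGroup A] (f : Y → Y') (c : List Y → A) : List Y' → A := op (mp f) c

namespace Crs
variable {Y Y' A : Type} [AddCommGroup A] (X : Crs Y) (X' : Crs Y')

/-- chains -/
def IsC (q : ℕ) (c : List Y → A) : Prop := ∃ E, X.ctrl E ∧ ∀ l, c l ≠ 0 → l ∈ Simp q E
/-- cycles -/
def IsZ (q : ℕ) (c : List Y → A) : Prop := X.IsC q c ∧ dd c = 0
/-- boundaries -/
def IsB (q : ℕ) (c : List Y → A) : Prop := ∃ b, X.IsC (q + 1) b ∧ dd b = c

/-- kernels that act on chains -/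
def Ker (q q' : ℕ) (k : List Y → (List Y' →₀ ℤ)) : Prop :=
  ∀ E, X.ctrl E → Ok k (Simp q E) ∧ ∃ E', X'.ctrl E' ∧ ∀ l ∈ Simp q E, ∀ l', k l l' ≠ 0 → l' ∈ Simp q' E'

/-- coarse maps -/
def Mor (f : Y → Y') : Prop :=
  ∀ E, X.ctrl E → X'.ctrl (Prod.map f f '' E) ∧ ∀ y, {x | (x, x) ∈ E ∧ f x = y}.Finite

/-- close maps -/
def Close (f g : Y → Y') : Prop := ∀ E, X.ctrl E → X'.ctrl (Prod.map f g '' E)

/-- coarse equivalences -/
structure Eqv (f : Y → Y') (g : Y' → Y) : Prop where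
  mor : X.Mor X' f
  mor' : X'.Mor X g
  left : X.Close X id (g ∘ f)
  right : X'.Close X' id (f ∘ g)

/-- Poincare duality space of dimension `d` with fundamental cycle `z` -/
structure PDz (d : ℕ) (z : List Y → ℤ) : Prop where
  cyc : X.IsZ d z
  van : ∀ (A : Type) [AddCommGroup A] (q : ℕ) (c : List Y → A), q ≠ d → X.IsZ q c → X.IsB q c
  surj : ∀ (A : Type) [AddCommGroup A] (c : List Y → A), X.IsZ d c → ∃ a : A, X.IsB d (c - tens z a)
  inj : ∀ (A : Type) [AddCommGroup A] (a : A), X.IsB d (tens z a) → a = 0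

end Crs

section Grp
variable {G A : Type} [Group G] [AddCommGroup A]

/-- the coarse structure on `G` defined by finite subsets of `Γ` -/
def gc (Γ : Subgroup G) : Crs G where
  ctrl E := ∃ F : Set G, F.Finite ∧ F ⊆ Γ ∧ ∀ p ∈ E, p.1⁻¹ * p.2 ∈ F
  empty := ⟨∅, finite_empty, empty_subset _, fun _ h => h.elim⟩
  mono := fun ⟨F, h1, h2, h3⟩ h => ⟨F, h1, h2, fun p hp => h3 p (h hp)⟩
  union := fun ⟨F, h1, h2, h3⟩ ⟨F', h1', h2', h3'⟩ => ⟨F ∪ F', h1.union h1', union_subset h2 h2',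
    fun p hp => hp.elim (fun hp => Or.inl (h3 p hp)) fun hp => Or.inr (h3' p hp)⟩
  symm := fun ⟨F, h1, h2, h3⟩ => ⟨F⁻¹, h1.inv, fun x hx => by simpa using Γ.inv_mem (h2 hx),
    fun p hp => by simpa using h3 _ hp⟩
  fin := fun ⟨F, h1, h2, h3⟩ x => (h1.image (x * ·)).subset fun y hy => ⟨_, h3 _ hy, by simp⟩

/-- coarse Poincare duality groups -/
def PD (G : Type) [Group G] (d : ℕ) : Prop := ∃ z, (gc (⊤ : Subgroup G)).PDz d z

/-- functions supported on lists in `L` -/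
def On (L : Subgroup G) (c : List G → A) : Prop := ∀ l, c l ≠ 0 → ∀ x ∈ l, x ∈ L

/-- fundamental cycles of a subgroup -/
def Fund (L : Subgroup G) (r : ℕ) (z : List G → ℤ) : Prop :=
  On L z ∧ (gc (⊤ : Subgroup L)).PDz r fun l => z (l.map Subtype.val)

/-- homologous inside `L` -/
def Hom (L : Subgroup G) (r : ℕ) (z z' : List G → ℤ) : Prop := ∃ w, On L w ∧ (gc L).IsC (r + 1) w ∧ dd w = z - z'

/-- finite support on every coset -/
def FinC (L : Subgroup G) (a : G → A) : Prop := ∀ g, {u : G | u ∈ L ∧ a (g * u) ≠ 0}.Finite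

/-- `∑ g, a g • (g · z)` -/
def Zc (z : List G → ℤ) (a : G → A) : List G → A := fun l => ∑ᶠ g, z (l.map (g⁻¹ * ·)) • a g

/-- signed coset sums -/
def ssum (L : Subgroup G) (ε : G →* ℤˣ) (a : G → A) (g : G) : A := ∑ᶠ u : L, (ε u : ℤ) • a (g * u)

/-- `t⁻¹ L t` -/
def cj (t : G) (L : Subgroup G) : Subgroup G := L.comap (MulAut.conj t).toMonoidHom

/-- chains on `G` as chains on `L` with coefficients in functions on `G ⧸ L` -/
def cur (L : Subgroup G) (c : List G → A) : List L → (G ⧸ L → A) := fun l j => c (l.map fun u : L => j.out * (u : G))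

/-- finitely generated subgroups between `L₀` and `K` -/
def Btw (L₀ K L : Subgroup G) : Prop := L₀ ≤ L ∧ L ≤ K ∧ L.FG

/-- the homology of `G` controlled by a locally Poincare duality subgroup `K` -/
structure Loc (K : Subgroup G) (r : ℕ) where
  L₀ : Subgroup G
  z : List G → ℤ
  ε : G →* ℤˣ
  le : L₀ ≤ K
  fg : L₀.FG
  fi : ∀ L, Btw L₀ K L → L₀.relIndex L ≠ 0
  on : On L₀ z
  cyc : (gc L₀).IsZ r z
  van : ∀ (A : Type) [AddCommGroup A] (q : ℕ) (c : List G → A), q ≠ r → (gc K).IsZ q c → (gc K).IsB q c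
  surj : ∀ (A : Type) [AddCommGroup A] (c : List G → A), (gc K).IsZ r c → ∃ a, FinC L₀ a ∧ (gc K).IsB r (c - Zc z a)
  zero : ∀ (A : Type) [AddCommGroup A] (a : G → A), FinC L₀ a →
    ((gc K).IsB r (Zc z a) ↔ ∃ L, Btw L₀ K L ∧ ssum L ε a = 0)
  right : ∀ (A : Type) [AddCommGroup A] (a : G → A) (t : G), FinC L₀ a →
    (gc K).IsB r (pu (· * t) (Zc z a) - Zc z fun g => (ε t : ℤ) • a (g * t⁻¹))

/-- height -/
def hv (h : G →* Multiplicative ℤ) (g : G) : ℤ := Multiplicative.toAdd (h g)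

/-- the setting of the Wang sequence -/
structure WS (Γ Γ' : Subgroup G) (h : G →* Multiplicative ℤ) (t : G) : Prop where
  mem : ∀ g, g ∈ Γ' ↔ g ∈ Γ ∧ hv h g = 0
  t_mem : t ∈ Γ
  ht : hv h t = 1

/-- the infinite cyclic cover: copies of `G`, in the `m`-th copy only bounded neighbourhoods of the level `m` are controlled -/
def tc (Γ : Subgroup G) (h : G →* Multiplicative ℤ) : Crs (ℤ × G) where
  ctrl E := ∃ (F : Set G) (R : ℤ), F.Finite ∧ F ⊆ Γ ∧ ∀ p ∈ E, p.1.1 = p.2.1 ∧ p.1.2⁻¹ * p.2.2 ∈ F ∧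
    |hv h p.1.2 - p.1.1| ≤ R ∧ |hv h p.2.2 - p.2.1| ≤ R
  empty := ⟨∅, 0, finite_empty, empty_subset _, fun _ h => h.elim⟩
  mono := fun ⟨F, R, h1, h2, h3⟩ h => ⟨F, R, h1, h2, fun p hp => h3 p (h hp)⟩
  union := fun ⟨F, R, h1, h2, h3⟩ ⟨F', R', h1', h2', h3'⟩ => ⟨F ∪ F', max R R', h1.union h1', union_subset h2 h2',
    fun p hp => hp.elim (fun hp => ⟨(h3 p hp).1, Or.inl (h3 p hp).2.1, (h3 p hp).2.2.1.trans (le_max_left _ _),
      (h3 p hp).2.2.2.trans (le_max_left _ _)⟩) fun hp => ⟨(h3' p hp).1, Or.inr (h3' p hp).2.1,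
      (h3' p hp).2.2.1.trans (le_max_right _ _), (h3' p hp).2.2.2.trans (le_max_right _ _)⟩⟩
  symm := fun ⟨F, R, h1, h2, h3⟩ => ⟨F⁻¹, R, h1.inv, fun x hx => by simpa using Γ.inv_mem (h2 hx),
    fun p hp => ⟨(h3 _ hp).1.symm, by simpa using (h3 _ hp).2.1, (h3 _ hp).2.2.2, (h3 _ hp).2.2.1⟩⟩
  fin := fun ⟨F, R, h1, h2, h3⟩ x => (h1.image fun s => (x.1, x.2 * s)).subset fun y hy =>
    ⟨_, (h3 _ hy).2.1, Prod.ext (h3 _ hy).1 (by simp)⟩

/-- deck transformation -/
def shf (p : ℤ × G) : ℤ × G := (p.1 + 1, p.2)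
/-- projection to the level -/
def lev (h : G →* Multiplicative ℤ) (t : G) (p : ℤ × G) : G := p.2 * t ^ (p.1 - hv h p.2)

/-- the connecting relation of the Wang sequence -/
def Wd (Γ : Subgroup G) (h : G →* Multiplicative ℤ) (t : G) (q : ℕ) (c e : List G → A) : Prop :=
  ∃ c' e' : List (ℤ × G) → A, (tc Γ h).IsC (q + 1) c' ∧ (tc Γ h).IsC q e' ∧ pu Prod.snd c' = c ∧
    dd c' = pu shf e' - e' ∧ pu (lev h t) e' = e

/-- top homology of `Γ` = invariants in the top homology of `K` -/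
structure Tr (A : Type) [AddCommGroup A] (Γ K : Subgroup G) (n r : ℕ) (W : (List G → A) → (List G → A) → Prop) : Prop where
  van : ∀ (q : ℕ) (c : List G → A), n < q → (gc Γ).IsZ q c → (gc Γ).IsB q c
  ex : ∀ c, (gc Γ).IsZ n c → ∃ e, W c e
  isZ : ∀ c e, W c e → (gc Γ).IsZ n c ∧ (gc K).IsZ r e
  isB : ∀ c e, W c e → ((gc Γ).IsB n c ↔ (gc K).IsB r e)
  sub : ∀ c e c' e', W c e → W c' e' → W (c - c') (e - e')
  smul : ∀ (m : ℤ) c e, W c e → W (m • c) (m • e)
  left : ∀ (g : G) c e, W c e → W (pu (g * ·) c) (pu (g * ·) e)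
  right : ∀ (s : G) c e, W c e → ∃ e', W (pu (· * s) c) e' ∧ (gc K).IsB r (e' - pu (· * s) e)
  surj : ∀ e, (gc K).IsZ r e → (∀ s ∈ Γ, (gc K).IsB r (pu (· * s) e - e)) → ∃ c e', W c e' ∧ (gc K).IsB r (e' - e)

end Grp

end Crest.Agent.R182
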