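import Crest.Agent.R182.E.Zc

/-! R182/E: fundamental cycles of subgroups. -/

set_option autoImplicit false
set_option linter.unusedVariables false
set_option linter.unusedSectionVars false
open Set Filter Topology MeasureTheory Crest.GroupTheory
open scoped Pointwise commutatorElement

noncomputable section
namespace Crest.Agent.R182

variable {G A : Type} [Group G] [AddCommGroup A] {L L' : Subgroup G} {r : ℕ} {z z' z'' : List G → ℤ}

theorem Hom.mono (h : Hom L r z z') (hle : L ≤ L') : Hom L' r z z' := by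
  obtain ⟨w, ho, hc, hd⟩ := h
  exact ⟨w, fun l hl x hx => hle (ho l hl x hx), hc.gc_mono hle, hd⟩

theorem Hom.symm (h : Hom L r z z') : Hom L r z' z := by
  obtain ⟨w, ho, hc, hd⟩ := h
  refine ⟨-w, fun l hl => ho l fun h0 => hl (by simp [h0]), hc.neg, ?_⟩
  rw [show dd (-w) = -dd w from op_neg _ _, hd, neg_sub]

theorem Hom.trans (h : Hom L r z z') (h' : Hom L r z' z'') : Hom L r z z'' := by
  obtain ⟨w, ho, hc, hd⟩ := h
  obtain ⟨w', ho', hc', hd'⟩ := h'
  refine ⟨w + w', fun l hl => ?_, hc.add hc', by rw [hc.dd_add hc', hd, hd', sub_add_sub_cancel]⟩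
  by_cases h0 : w l = 0
  · exact ho' l fun h1 => hl (by simp [h0, h1])
  · exact ho l h0

theorem funda_smul {c : List G → A} (ho : On L c) (m : ℤ) : On L (m • c) :=
  fun l hl => ho l fun h0 => hl (by simp [h0])

theorem funda_sub {c c' : List G → A} (ho : On L c) (ho' : On L c') : On L (c - c') := fun l hl => by
  by_cases h0 : c l = 0
  · exact ho' l fun h1 => hl (by simp [h0, h1])
  · exact ho l h0

theorem funda_on {c : List G → A} (ho : On L c) {f : G → G} (hf : ∀ x ∈ L, f x ∈ L') : On L' (pu f c) := by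
  intro l hl x hx
  obtain ⟨l₀, h0, rfl⟩ := pu_ne_zero hl
  obtain ⟨y, hy, rfl⟩ := List.mem_map.1 hx
  exact hf y (ho l₀ h0 y hy)

theorem funda_mor (L : Subgroup G) : (gc (⊤ : Subgroup L)).Mor (gc L) (Subtype.val : L → G) :=
  mor_hom L.subtype Subtype.val_injective fun u _ => u.2

theorem funda_conj (t : G) (c : List G → A) :
    pu (fun x => t⁻¹ * x * t) c = fun l => c (l.map fun x => t * x * t⁻¹) :=
  pu_equiv ⟨fun x => t⁻¹ * x * t, fun x => t * x * t⁻¹, fun x => by simp [mul_assoc], fun x => by simp [mul_assoc]⟩ c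

theorem Hom.smul (h : Hom L r z z') (m : ℤ) : Hom L r (m • z) (m • z') := by
  obtain ⟨w, ho, hc, hd⟩ := h
  exact ⟨m • w, funda_smul ho m, hc.smul m, by rw [hc.dd_smul, hd, smul_sub]⟩

theorem Hom.conj (h : Hom L r z z') (t : G) :
    Hom (cj t L) r (pu (fun x => t⁻¹ * x * t) z) (pu (fun x => t⁻¹ * x * t) z') := by
  obtain ⟨w, ho, hc, hd⟩ := h
  refine ⟨pu (fun x => t⁻¹ * x * t) w, funda_on ho fun x hx => mem_cj.2 (by simpa [mul_assoc] using hx),
    hc.pu (mor_conj L t), ?_⟩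
  rw [hc.dd_pu (mor_conj L t), hd, funda_conj, funda_conj, funda_conj]
  rfl

theorem hom_iff (ho : On L z) (ho' : On L z') : Hom L r z z' ↔
    (gc (⊤ : Subgroup L)).IsB r ((fun l => z (l.map Subtype.val)) - fun l => z' (l.map Subtype.val)) := by
  constructor
  · rintro ⟨w, hw, hc, hd⟩
    refine ⟨_, res_isC hc, ?_⟩
    rw [← res_dd hc, hd]
    rfl
  · rintro ⟨b, hb, hd⟩
    refine ⟨pu Subtype.val b, on_pu b, hb.pu (funda_mor L), ?_⟩
    rw [hb.dd_pu (funda_mor L), hd]
    exact (funda_sub ho ho').pu_res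

theorem Hom.Zc (h : Hom L r z z') (ho : On L z) (hz : (gc L).IsC r z) (ho' : On L z') (hz' : (gc L).IsC r z') {a : G → A}
    (ha : FinC L a) : (gc L).IsB r (Zc z a - Zc z' a) := by
  obtain ⟨w, hw, hc, hd⟩ := h
  exact ⟨_, Zc_isC hc a, by rw [dd_Zc hw hc ha, hd, Zc_sub_left ho hz ho' hz' ha]⟩

/-- `isB_right` in the group `L`, `hom_iff` -/
theorem hom_right (ho : On L z) (hz : (gc L).IsZ r z) {u : G} (hu : u ∈ L) : Hom L r (pu (· * u) z) z := by
  rw [hom_iff (funda_on ho fun x hx => L.mul_mem hx hu) ho]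
  have h1 : (gc (⊤ : Subgroup L)).IsZ r fun l => z (l.map Subtype.val) :=
    ⟨res_isC hz.1, by rw [← res_dd hz.1, hz.2]; rfl⟩
  have h2 := isB_right (Subgroup.mem_top (⟨u, hu⟩ : L)) h1
  have e : (fun l : List L => pu (· * u) z (l.map Subtype.val)) =
      pu (· * (⟨u, hu⟩ : L)) fun l => z (l.map Subtype.val) := by
    have e1 := pu_equiv (Equiv.mulRight u) z
    have e2 := pu_equiv (Equiv.mulRight (⟨u, hu⟩ : L)) fun l : List L => z (l.map Subtype.val)
    rw [Equiv.coe_mulRight] at e1 e2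
    rw [e1, e2]
    funext l
    simp only [List.map_map]
    rfl
  rwa [e]

theorem exists_fund (h : PD L r) : ∃ z, Fund L r z := by
  obtain ⟨z, hz⟩ := h
  refine ⟨pu Subtype.val z, on_pu z, ?_⟩
  rwa [show (fun l : List L => pu Subtype.val z (l.map Subtype.val)) = z from
    funext fun l => pu_apply_map Subtype.val_injective z l]

theorem Fund.isZ (h : Fund L r z) : (gc L).IsZ r z := by
  have h1 := h.2.cyc.pu (funda_mor L)
  rwa [h.1.pu_res] at h1

theorem funda_gen (h : Fund L r z) (φ : G →* G) (hφ : Function.Injective φ) (f : L →* L') (hf : ∀ x, (f x : G) = φ x)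
    (hr : f.range.FiniteIndex) : Fund L' r (pu φ z) := by
  have hi : Function.Injective f := fun x y hxy => Subtype.ext (hφ (by rw [← hf, ← hf, hxy]))
  have hm : ∀ x ∈ L, φ x ∈ L' := fun x hx => hf ⟨x, hx⟩ ▸ (f ⟨x, hx⟩).2
  obtain ⟨g, e⟩ := eqv_of_finiteIndex f hi hr
  refine ⟨funda_on h.1 hm, ?_⟩
  have e1 : pu φ z = pu Subtype.val (pu f fun l => z (l.map Subtype.val)) := by
    rw [h.2.cyc.1.pu_pu e.mor (funda_mor L'), show (Subtype.val ∘ f : L → G) = φ ∘ Subtype.val from funext hf,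
      ← h.2.cyc.1.pu_pu (funda_mor L) (mor_hom φ hφ hm), h.1.pu_res]
  rw [e1, show (fun l : List L' => pu Subtype.val (pu f fun l => z (l.map Subtype.val)) (l.map Subtype.val)) = _ from
    funext fun l => pu_apply_map Subtype.val_injective _ l]
  exact h.2.eqv e

/-- `eqv_of_finiteIndex` for `Subgroup.inclusion`, `PDz.eqv` -/
theorem Fund.up (h : Fund L r z) (hle : L ≤ L') (hi : L.relIndex L' ≠ 0) : Fund L' r z := by
  have h1 := funda_gen h (MonoidHom.id G) Function.injective_id (Subgroup.inclusion hle) (fun _ => rfl)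
    (by rw [Subgroup.inclusion_range]; exact ⟨hi⟩)
  rwa [show pu (MonoidHom.id G) z = z from pu_id z] at h1

theorem Fund.conj (h : Fund L r z) (t : G) : Fund (cj t L) r (pu (fun x => t⁻¹ * x * t) z) := by
  have hm : ∀ x : L, ((MulAut.conj t⁻¹).toMonoidHom.comp L.subtype) x ∈ cj t L := fun x =>
    mem_cj.2 (by simp [mul_assoc])
  have hr : (((MulAut.conj t⁻¹).toMonoidHom.comp L.subtype).codRestrict (cj t L) hm).range = ⊤ := by
    rw [MonoidHom.range_eq_top]
    intro y
    exact ⟨⟨t * y * t⁻¹, mem_cj.1 y.2⟩, Subtype.ext (by simp [mul_assoc])⟩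
  have h1 := funda_gen h (MulAut.conj t⁻¹).toMonoidHom (MulAut.conj t⁻¹).injective
    (((MulAut.conj t⁻¹).toMonoidHom.comp L.subtype).codRestrict (cj t L) hm) (fun _ => rfl) (by rw [hr]; infer_instance)
  rwa [show ((MulAut.conj t⁻¹).toMonoidHom : G → G) = fun x => t⁻¹ * x * t from funext fun x => by simp] at h1

theorem Fund.eq_zero (h : Fund L r z) {m : ℤ} (hm : Hom L r (m • z) 0) : m = 0 := by
  rw [hom_iff (z' := 0) (funda_smul h.1 m) fun l hl => absurd rfl hl] at hm
  refine h.2.inj ℤ m ?_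
  convert hm using 1
  funext l
  simp [tens, mul_comm]

/-- `z' ~ m • z`, `z ~ m' • z'`, so `m * m' = 1` -/
theorem Fund.sign (h : Fund L r z) (h' : Fund L r z') : ∃ e : ℤˣ, Hom L r z' ((e : ℤ) • z) := by
  have key : ∀ {z z' : List G → ℤ}, Fund L r z → Fund L r z' → ∃ m : ℤ, Hom L r z' (m • z) := by
    intro z z' h h'
    obtain ⟨m, hm⟩ := h.2.surj ℤ _ h'.2.cyc
    refine ⟨m, (hom_iff h'.1 (funda_smul h.1 m)).2 ?_⟩
    convert hm using 2
    funext l
    simp [tens, mul_comm]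
  obtain ⟨m, hm⟩ := key h h'
  obtain ⟨m', hm'⟩ := key h' h
  obtain ⟨w, ho, hc, hd⟩ := hm'.trans (hm.smul m')
  have h1 : 1 - m' * m = 0 := h.eq_zero ⟨w, ho, hc, by rw [hd, sub_zero, sub_smul, one_smul, smul_smul]⟩
  exact ⟨Units.mkOfMulEqOne m m' (by linarith), hm⟩

theorem Fund.van (h : Fund L r z) {q : ℕ} {c : List G → A} (hq : q ≠ r) (hc : (gc L).IsZ q c) : (gc L).IsB q c :=
  (cur_isB hc.1).1 (h.2.van _ q _ hq (cur_isZ hc))

theorem fundb_mem (h : Fund L r z) {l : List L} {f : L → G} (hl : z (l.map f) ≠ 0) : ∃ u, f u ∈ L := by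
  obtain ⟨E, -, hE⟩ := h.isZ.1
  have h1 := (hE _ hl).1
  rcases l with _ | ⟨u, l⟩
  · simp at h1
  · exact ⟨u, h.1 _ hl _ (by simp)⟩

open Classical in
theorem fundb_sec (h : Fund L r z) (b : G ⧸ L → A) :
    ∃ a, FinC L a ∧ cur L (Zc z a) = tens (fun l : List L => z (l.map Subtype.val)) b := by
  refine ⟨fun g => if g = (g : G ⧸ L).out then b g else 0, fun g => ?_, funext fun l => funext fun j => ?_⟩
  · refine (finite_singleton (g⁻¹ * (g : G ⧸ L).out)).subset fun u hu => ?_
    have h1 : g * u = ((g * u : G) : G ⧸ L).out := by_contra fun h0 => hu.2 (if_neg h0)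
    rw [QuotientGroup.mk_mul_of_mem g hu.1] at h1
    exact eq_inv_mul_of_mul_eq h1
  · simp only [cur, Zc, List.map_map]
    rw [finsum_eq_single _ j.out]
    · simp [tens, Function.comp_def]
    · intro g hg
      by_cases h0 : z (l.map ((g⁻¹ * ·) ∘ fun u : L => j.out * (u : G))) = 0
      · rw [h0, zero_smul]
      · obtain ⟨u, hu⟩ := fundb_mem h h0
        have h1 : (g : G ⧸ L) = j := by
          rw [← QuotientGroup.out_eq' j, QuotientGroup.eq]
          simpa [mul_assoc] using L.mul_mem hu (L.inv_mem u.2)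
        rw [if_neg (h1 ▸ hg), smul_zero]

/-- `cur L (Zc z a) = tens z b` when `a g = b j` for `g = j.out` and zero otherwise -/
theorem Fund.surj (h : Fund L r z) {c : List G → A} (hc : (gc L).IsZ r c) : ∃ a, FinC L a ∧ (gc L).IsB r (c - Zc z a) := by
  obtain ⟨b, hb⟩ := h.2.surj _ _ (cur_isZ hc)
  obtain ⟨a, ha, e⟩ := fundb_sec h b
  exact ⟨a, ha, (cur_isB (hc.1.sub (Zc_isC h.isZ.1 a))).1 (by rwa [cur_sub, e])⟩

theorem fundb_sum {Y ι : Type} {X : Crs Y} {q : ℕ} (s : Finset ι) {c : ι → List Y → A} (h : ∀ i ∈ s, X.IsB q (c i)) :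
    X.IsB q (∑ i ∈ s, c i) :=
  Finset.sum_induction _ _ (fun _ _ => Crs.IsB.add) Crs.IsB.zero h

theorem fundb_ev (h : Fund L r z) {ε : G →* ℤˣ} (hε : ∀ u ∈ L, Hom L r (pu (u * ·) z) ((ε u : ℤ) • z)) {a : G → A}
    (ha : FinC L a) (j : G ⧸ L) : (gc (⊤ : Subgroup L)).IsB r ((fun l => cur L (Zc z a) l j) -
      tens (fun l : List L => z (l.map Subtype.val)) (ssum L ε a j.out)) := by
  have hs : {u : L | a (j.out * u) ≠ 0}.Finite :=
    ((ha j.out).preimage Subtype.val_injective.injOn).subset fun u hu => ⟨u.2, hu⟩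
  have hpu : ∀ u : G, pu (u * ·) z = fun l => z (l.map (u⁻¹ * ·)) := fun u => pu_equiv (Equiv.mulLeft u) z
  have key := fundb_sum hs.toFinset fun (u : L) _ => ((hom_iff (z := pu ((u : G) * ·) z) (z' := (ε u : ℤ) • z)
    (fun l hl x hx => by
      rw [hpu] at hl
      simpa using L.mul_mem u.2 (h.1 _ hl _ (List.mem_map_of_mem hx)))
    fun l hl => h.1 l fun h0 => hl (by simp [h0])).1 (hε u u.2)).tens (a (j.out * u))
  convert key using 1
  funext l
  have e1 : cur L (Zc z a) l j = ∑ u ∈ hs.toFinset, z ((l.map Subtype.val).map ((u : G)⁻¹ * ·)) • a (j.out * u) := by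
    simp only [cur, Zc, List.map_map]
    rw [← finsum_comp_equiv (Equiv.mulLeft j.out), finsum_eq_sum_of_support_subset
      (s := hs.toFinset.map (Function.Embedding.subtype _)), Finset.sum_map]
    · simp [Function.comp_def, mul_assoc]
    · intro g hg
      obtain ⟨u, hu⟩ := fundb_mem h (left_ne_zero_of_smul hg)
      have h1 : g ∈ L := by simpa [mul_assoc] using L.mul_mem u.2 (L.inv_mem hu)
      simpa [h1] using right_ne_zero_of_smul hg
  have e2 : ssum L ε a j.out = ∑ u ∈ hs.toFinset, (ε u : ℤ) • a (j.out * u) :=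
    finsum_eq_sum_of_support_subset _ fun u hu => by simpa using right_ne_zero_of_smul hu
  simp only [Pi.sub_apply, Finset.sum_apply, tens, e1, e2, hpu, sub_smul, Finset.sum_sub_distrib, Finset.smul_sum,
    Pi.smul_apply, smul_eq_mul, mul_comm (ε _ : ℤ), mul_smul]

/-- `cur L (Zc z a) ~ tens z b` (`surj`); evaluating at `j` (`IsB.map`) gives the finite sum `∑ u, tens (u · z) (a (j.out * u))`, which is homologous to
`tens z (ssum L ε a j.out)`; `inj` gives `b j = ssum L ε a j.out`; `ssum_right` -/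
theorem Fund.zero (h : Fund L r z) {ε : G →* ℤˣ} (hε : ∀ u ∈ L, Hom L r (pu (u * ·) z) ((ε u : ℤ) • z)) {a : G → A}
    (ha : FinC L a) : (gc L).IsB r (Zc z a) ↔ ssum L ε a = 0 := by
  obtain ⟨b, hb⟩ := h.2.surj _ _ (cur_isZ (Zc_isZ h.1 h.isZ ha))
  have e : ∀ j, b j = ssum L ε a j.out := fun j => by
    refine sub_eq_zero.1 (h.2.inj _ _ ?_)
    have h1 : (gc (⊤ : Subgroup L)).IsB r ((fun l => cur L (Zc z a) l j) -
        tens (fun l : List L => z (l.map Subtype.val)) (b j)) := hb.map (Pi.evalAddMonoidHom (fun _ => A) j)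
    convert h1.symm.trans (fundb_ev h hε ha j) using 1
    funext l
    exact smul_sub _ _ _
  rw [← cur_isB (Zc_isC h.isZ.1 a)]
  constructor
  · intro h0
    have h1 := h.2.inj _ b (hb.symm.of_sub h0)
    funext g
    obtain ⟨u, hu⟩ := QuotientGroup.mk_out_eq_mul L g
    have h2 := e g
    rw [h1, hu, ssum_right a g u.2] at h2
    have h3 := congrArg (fun x => (ε u : ℤ) • x) h2
    simpa [smul_smul] using h3.symm
  · intro h0
    refine hb.of_sub ?_
    rw [show b = 0 from funext fun j => by rw [e j, h0]; rfl]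
    convert Crs.IsB.zero using 1
    funext l
    exact smul_zero _

end Crest.Agent.R182
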