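import Crest.Agent.R182.E.Chain
import Crest.Agent.R182.A.QI

/-! R182/E: the coarse structures of groups. -/

set_option autoImplicit false
set_option linter.unusedVariables false
set_option linter.unusedSectionVars false
open Set Filter Topology MeasureTheory Crest.GroupTheory
open scoped Pointwise commutatorElement

noncomputable section
namespace Crest.Agent.R182

open Crest.Geometry
variable {G G' A : Type} [Group G] [Group G'] [AddCommGroup A] {Γ Γ' : Subgroup G} {q : ℕ} {c : List G → A}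

theorem gc_isC : (gc Γ).IsC q c ↔ ∃ F : Set G, F.Finite ∧ F ⊆ Γ ∧
    ∀ l, c l ≠ 0 → l.length = q + 1 ∧ ∀ x ∈ l, ∀ y ∈ l, x⁻¹ * y ∈ F :=
  ⟨fun ⟨E, ⟨F, h1, h2, h3⟩, h⟩ => ⟨F, h1, h2, fun l hl => ⟨(h l hl).1, fun x hx y hy => h3 _ ((h l hl).2 x hx y hy)⟩⟩,
    fun ⟨F, h1, h2, h⟩ => ⟨{p | p.1⁻¹ * p.2 ∈ F}, ⟨F, h1, h2, fun _ hp => hp⟩, h⟩⟩

theorem Crs.IsC.gc_mono (h : (gc Γ).IsC q c) (hle : Γ ≤ Γ') : (gc Γ').IsC q c := by
  obtain ⟨F, h1, h2, h3⟩ := gc_isC.1 h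
  exact gc_isC.2 ⟨F, h1, fun x hx => hle (h2 hx), h3⟩

theorem Crs.IsZ.gc_mono (h : (gc Γ).IsZ q c) (hle : Γ ≤ Γ') : (gc Γ').IsZ q c :=
  ⟨h.1.gc_mono hle, h.2⟩

theorem Crs.IsB.gc_mono (h : (gc Γ).IsB q c) (hle : Γ ≤ Γ') : (gc Γ').IsB q c :=
  h.imp fun _ hb => ⟨hb.1.gc_mono hle, hb.2⟩

theorem Crs.IsZ.gc_zero (h : (gc Γ).IsZ 0 c) (Γ' : Subgroup G) : (gc Γ').IsZ 0 c := by
  obtain ⟨F, -, -, h3⟩ := gc_isC.1 h.1
  refine ⟨gc_isC.2 ⟨{1}, finite_singleton _, by simp, fun l hl => ⟨(h3 l hl).1, fun x hx y hy => ?_⟩⟩, h.2⟩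
  obtain ⟨a, rfl⟩ := List.length_eq_one_iff.1 (h3 l hl).1
  simp_all

theorem mem_cj {t x : G} {L : Subgroup G} : x ∈ cj t L ↔ t * x * t⁻¹ ∈ L := Iff.rfl

theorem cj_fg {L : Subgroup G} (h : L.FG) (t : G) : (cj t L).FG := by
  obtain ⟨S, hS, hf⟩ := (Subgroup.fg_iff _).1 h
  refine (Subgroup.fg_iff _).2 ⟨(MulAut.conj t).symm.toMonoidHom '' S, ?_, hf.image _⟩
  rw [← MonoidHom.map_closure, hS]
  exact (Subgroup.comap_equiv_eq_map_symm' _ _).symm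

theorem cj_relIndex (t : G) (L L' : Subgroup G) : (cj t L).relIndex (cj t L') = L.relIndex L' := by
  rw [cj, cj, Subgroup.relIndex_comap, Subgroup.map_comap_eq_self_of_surjective (MulAut.conj t).surjective]

theorem Btw.refl {L₀ K : Subgroup G} (hle : L₀ ≤ K) (hf : L₀.FG) : Btw L₀ K L₀ := ⟨le_rfl, hle, hf⟩

theorem Btw.sup {L₀ K L L' : Subgroup G} (h : Btw L₀ K L) (hle : L' ≤ K) (hf : L'.FG) : Btw L₀ K (L ⊔ L') :=
  ⟨h.1.trans le_sup_left, sup_le h.2.1 hle, h.2.2.sup hf⟩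

theorem exists_btw {L₀ K L : Subgroup G} (hL : Btw L₀ K L) (h : (gc K).IsC q c) :
    ∃ L', L ≤ L' ∧ Btw L₀ K L' ∧ (gc L').IsC q c := by
  obtain ⟨F, h1, h2, h3⟩ := gc_isC.1 h
  exact ⟨L ⊔ Subgroup.closure F, le_sup_left, hL.sup ((Subgroup.closure_le _).2 h2) ((Subgroup.fg_iff _).2 ⟨F, rfl, h1⟩),
    gc_isC.2 ⟨F, h1, fun x hx => Subgroup.mem_sup_right (Subgroup.subset_closure hx), h3⟩⟩

/-- conjugates of `L₀` have finite index in the subgroups that contain them: `cj t⁻¹ L ⊔ L₀` is between `L₀` and `K` -/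
theorem cj_relIndex_ne_zero {L₀ K L : Subgroup G} [K.Normal] (hle : L₀ ≤ K) (hf : L₀.FG)
    (hi : ∀ L, Btw L₀ K L → L₀.relIndex L ≠ 0) (t : G) (hL : L ≤ K) (hfg : L.FG) : (cj t L₀).relIndex L ≠ 0 := by
  have h1 : L = cj t (cj t⁻¹ L) := by ext x; simp [mem_cj, mul_assoc]
  rw [h1, cj_relIndex]
  exact fun h0 => hi _ ((Btw.refl hle hf).sup (L' := cj t⁻¹ L) (fun x hx => by
    simpa [mul_assoc] using ‹K.Normal›.conj_mem _ (hL (mem_cj.1 hx)) t) (cj_fg hfg _))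
    (Subgroup.relIndex_eq_zero_of_le_right le_sup_right h0)

theorem grpa_mor {Δ : Subgroup G'} {f g φ : G → G'} (h : ∀ x y, (f x)⁻¹ * g y = φ (x⁻¹ * y)) (hφ : ∀ u ∈ Γ, φ u ∈ Δ) :
    (gc Γ).Close (gc Δ) f g := by
  rintro E ⟨F, h1, h2, h3⟩
  refine ⟨φ '' F, h1.image _, ?_, ?_⟩
  · rintro _ ⟨u, hu, rfl⟩
    exact hφ u (h2 hu)
  · rintro _ ⟨p, hp, rfl⟩
    exact ⟨_, h3 p hp, (h _ _).symm⟩

theorem grpa_mor' {Δ : Subgroup G'} {f φ : G → G'} (hf : Function.Injective f) (h : ∀ x y, (f x)⁻¹ * f y = φ (x⁻¹ * y))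
    (hφ : ∀ u ∈ Γ, φ u ∈ Δ) : (gc Γ).Mor (gc Δ) f := fun E hE =>
  ⟨grpa_mor h hφ E hE, fun y => ((finite_singleton y).preimage hf.injOn).subset fun _ hx => hx.2⟩

theorem mor_left (Γ : Subgroup G) (g : G) : (gc Γ).Mor (gc Γ) (g * ·) :=
  grpa_mor' (φ := id) (mul_right_injective g) (fun x y => by simp [mul_assoc]) fun _ h => h

theorem mor_right (s : G) (h : ∀ u ∈ Γ, s⁻¹ * u * s ∈ Γ') : (gc Γ).Mor (gc Γ') (· * s) :=
  grpa_mor' (φ := fun u => s⁻¹ * u * s) (mul_left_injective s) (fun x y => by simp [mul_assoc]) h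

theorem mor_right' (Γ : Subgroup G) [Γ.Normal] (s : G) : (gc Γ).Mor (gc Γ) (· * s) :=
  mor_right s fun u hu => by simpa using ‹Γ.Normal›.conj_mem u hu s⁻¹

theorem mor_conj (Γ : Subgroup G) (s : G) : (gc Γ).Mor (gc (cj s Γ)) fun x => s⁻¹ * x * s :=
  grpa_mor' (φ := fun u => s⁻¹ * u * s) (fun x y h => by simpa using h) (fun x y => by simp [mul_assoc])
    fun u hu => by simpa [mem_cj, mul_assoc] using hu

theorem isB_right {s : G} (hs : s ∈ Γ) (h : (gc Γ).IsZ q c) : (gc Γ).IsB q (pu (· * s) c - c) := by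
  have := (grpa_mor (Γ := Γ) (Δ := Γ) (f := id) (g := (· * s)) (φ := (· * s)) (fun x y => by simp [mul_assoc])
    fun u hu => Γ.mul_mem hu hs).isB (Crs.Mor.id _)
    (mor_right s fun u hu => Γ.mul_mem (Γ.mul_mem (Γ.inv_mem hs) hu) hs) h
  rwa [pu_id] at this

theorem mor_hom (f : G →* G') (hf : Function.Injective f) {Δ : Subgroup G'} (h : ∀ u ∈ Γ, f u ∈ Δ) :
    (gc Γ).Mor (gc Δ) f :=
  grpa_mor' (φ := f) hf (fun x y => by simp) h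

theorem grpb_eqv {F : G → G'}
    (h1 : ∀ A : Set G, A.Finite → ∃ B : Set G', B.Finite ∧ ∀ x x', x⁻¹ * x' ∈ A → (F x)⁻¹ * F x' ∈ B)
    (h2 : ∀ B : Set G', B.Finite → ∃ A : Set G, A.Finite ∧ ∀ x x', (F x)⁻¹ * F x' ∈ B → x⁻¹ * x' ∈ A)
    {R : Set G'} (hR : R.Finite) (h3 : ∀ y, ∃ x, (F x)⁻¹ * y ∈ R) :
    ∃ g, (gc (⊤ : Subgroup G)).Eqv (gc (⊤ : Subgroup G')) F g := by
  choose g hg using h3
  refine ⟨g, ?_, ?_, ?_, ?_⟩
  · rintro E ⟨A, hA, -, hE⟩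
    obtain ⟨B, hB, hAB⟩ := h1 A hA
    refine ⟨⟨B, hB, subset_univ _, ?_⟩, fun y => ?_⟩
    · rintro _ ⟨p, hp, rfl⟩
      exact hAB _ _ (hE p hp)
    · obtain ⟨A', hA', h⟩ := h2 ((F (g y))⁻¹ • {y}) (finite_singleton y).smul_set
      refine (hA'.smul_set (a := g y)).subset fun x hx => ?_
      rw [mem_smul_set_iff_inv_smul_mem]
      exact h _ _ ⟨y, rfl, by rw [hx.2]; rfl⟩
  · rintro E ⟨B, hB, -, hE⟩
    obtain ⟨A, hA, hAB⟩ := h2 _ ((hR.mul hB).mul hR.inv)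
    refine ⟨⟨A, hA, subset_univ _, ?_⟩, fun x => (hR.smul_set (a := F x)).subset fun y hy => ?_⟩
    · rintro _ ⟨p, hp, rfl⟩
      refine hAB _ _ ⟨_, mul_mem_mul (hg p.1) (hE p hp), _, inv_mem_inv.2 (hg p.2), ?_⟩
      simp [mul_assoc]
    · rw [mem_smul_set_iff_inv_smul_mem, ← hy.2]
      exact hg y
  · rintro E ⟨A, hA, -, hE⟩
    obtain ⟨B, hB, hAB⟩ := h1 A hA
    obtain ⟨A', hA', h⟩ := h2 _ (hB.mul hR.inv)
    refine ⟨A', hA', subset_univ _, ?_⟩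
    rintro _ ⟨p, hp, rfl⟩
    refine h _ _ ⟨_, hAB _ _ (hE p hp), _, inv_mem_inv.2 (hg (F p.2)), ?_⟩
    simp [mul_assoc]
  · rintro E ⟨B, hB, -, hE⟩
    refine ⟨_, hB.mul hR.inv, subset_univ _, ?_⟩
    rintro _ ⟨p, hp, rfl⟩
    refine ⟨_, hE p hp, _, inv_mem_inv.2 (hg p.2), ?_⟩
    simp [mul_assoc]

/-- `g y` = the element with `f (g y) = y * r⁻¹`, `r` in a finite set of representatives of the right cosets of the range -/
theorem eqv_of_finiteIndex (f : G →* G') (hf : Function.Injective f) (hr : f.range.FiniteIndex) :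
    ∃ g, (gc (⊤ : Subgroup G)).Eqv (gc (⊤ : Subgroup G')) f g := by
  refine grpb_eqv (fun A hA => ⟨f '' A, hA.image _, fun x x' h => ⟨_, h, by simp⟩⟩)
    (fun B hB => ⟨f ⁻¹' B, hB.preimage hf.injOn, fun x x' h => by simpa using h⟩)
    (finite_range fun q : G' ⧸ f.range => q.out⁻¹) fun y => ?_
  obtain ⟨⟨_, x, rfl⟩, h⟩ := QuotientGroup.mk_out_eq_mul f.range y⁻¹
  exact ⟨x, (y⁻¹ : G'), by simp [h]⟩

theorem PD.up {d : ℕ} (h : PD G d) (f : G →* G') (hf : Function.Injective f) (hr : f.range.FiniteIndex) : PD G' d := by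
  obtain ⟨z, hz⟩ := h
  obtain ⟨g, e⟩ := eqv_of_finiteIndex f hf hr
  exact ⟨_, hz.eqv e⟩

theorem PD.down {d : ℕ} (h : PD G' d) (f : G →* G') (hf : Function.Injective f) (hr : f.range.FiniteIndex) : PD G d := by
  obtain ⟨z, hz⟩ := h
  obtain ⟨g, e⟩ := eqv_of_finiteIndex f hf hr
  exact ⟨_, hz.eqv e.symm⟩

theorem grpb_bdd (S : Set G) {A : Set G} (hA : A.Finite) : ∃ R : ℝ, ∀ a ∈ A, (wordLength S a : ℝ) ≤ R := by
  obtain ⟨R, hR⟩ := (hA.image fun a => (wordLength S a : ℝ)).bddAbove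
  exact ⟨R, fun a ha => hR ⟨a, ha, rfl⟩⟩

theorem grpb_fin {S : Set G} (hS : Subgroup.closure S = ⊤) (hf : S.Finite) (R : ℝ) :
    {g | (wordLength S g : ℝ) ≤ R}.Finite :=
  (wl_fin hS hf ⌊R⌋₊).subset fun g hg => Nat.le_floor hg

theorem gc_ctrl_iff {S : Set G} (hS : Subgroup.closure S = ⊤) (hf : S.Finite) {E : Set (G × G)} :
    (gc (⊤ : Subgroup G)).ctrl E ↔ ∃ R : ℝ, ∀ p ∈ E, wordDist S p.1 p.2 ≤ R := by
  constructor
  · rintro ⟨A, hA, -, hE⟩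
    obtain ⟨R, hR⟩ := grpb_bdd S hA
    exact ⟨R, fun p hp => hR _ (hE p hp)⟩
  · rintro ⟨R, hR⟩
    exact ⟨_, grpb_fin hS hf R, subset_univ _, hR⟩

/-- `g y` = a point with `F (g y)` within `C` of `y` -/
theorem eqv_of_qi {S : Set G} {T : Set G'} (hS : Subgroup.closure S = ⊤) (hf : S.Finite) (hT : Subgroup.closure T = ⊤)
    (hf' : T.Finite) {F : G → G'} (h : IsQuasiIsometry (wordDist S) (wordDist T) F) :
    ∃ g, (gc (⊤ : Subgroup G)).Eqv (gc (⊤ : Subgroup G')) F g := by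
  obtain ⟨K, C, hK, hC, h, h'⟩ := h
  have hK0 : 0 < K := one_pos.trans_le hK
  refine grpb_eqv (fun A hA => ?_) (fun B hB => ?_) (grpb_fin hT hf' C) fun y => ?_
  · obtain ⟨R, hR⟩ := grpb_bdd S hA
    refine ⟨_, grpb_fin hT hf' (K * R + C), fun x x' hx => (h x x').2.trans ?_⟩
    exact add_le_add_left (mul_le_mul_of_nonneg_left (hR _ hx) hK0.le) _
  · obtain ⟨R, hR⟩ := grpb_bdd T hB
    refine ⟨_, grpb_fin hS hf (K * (R + C)), fun x x' hx => ?_⟩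
    have := (h x x').1.trans (hR _ hx)
    rw [sub_le_iff_le_add, inv_mul_le_iff₀ hK0] at this
    exact this
  · obtain ⟨x, hx⟩ := h' y
    exact ⟨x, (wd_comm hT _ _).le.trans hx⟩

end Crest.Agent.R182
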