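import Crest.Agent.R182.E.Fund

/-! R182/E: locally Poincare duality normal subgroups. -/

set_option autoImplicit false
set_option linter.unusedVariables false
set_option linter.unusedSectionVars false
open Set Filter Topology MeasureTheory Crest.GroupTheory
open scoped Pointwise commutatorElement

noncomputable section
namespace Crest.Agent.R182

variable {G A : Type} [Group G] [AddCommGroup A] {K L₀ : Subgroup G} {r : ℕ}

theorem loca_pu {f g : G → G} (h1 : ∀ x, g (f x) = x) (h2 : ∀ x, f (g x) = x) (c : List G → A) :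
    pu f c = fun l => c (l.map g) := pu_equiv ⟨f, g, h1, h2⟩ c

theorem loca_conj (t : G) (c : List G → A) : pu (fun x => t⁻¹ * x * t) c = fun l => c (l.map fun x => t * x * t⁻¹) :=
  loca_pu (fun x => by group) (fun x => by group) c

theorem loca_cj_le [K.Normal] {L : Subgroup G} (h : L ≤ K) (t : G) : cj t L ≤ K := fun x hx => by
  have := ‹K.Normal›.conj_mem _ (h (mem_cj.1 hx)) t⁻¹
  simpa [mul_assoc] using this

theorem loca_btw [K.Normal] (hle : L₀ ≤ K) (hf : L₀.FG) (t : G) : Btw L₀ K (L₀ ⊔ cj t L₀) :=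
  (Btw.refl hle hf).sup (loca_cj_le hle t) (cj_fg hf t)

theorem loca_fund [K.Normal] (hle : L₀ ≤ K) (hf : L₀.FG) (hi : ∀ L, Btw L₀ K L → L₀.relIndex L ≠ 0) {z : List G → ℤ}
    (hz : Fund L₀ r z) (t : G) {L : Subgroup G} (hL : Btw L₀ K L) (ht : cj t L₀ ≤ L) :
    Fund L r (pu (fun x => t⁻¹ * x * t) z) :=
  (hz.conj t).up ht (cj_relIndex_ne_zero hle hf hi t hL.2.1 hL.2.2)

theorem loca_uniq {L : Subgroup G} {z : List G → ℤ} (hz : Fund L r z) {m m' : ℤ} (h : Hom L r (m • z) (m' • z)) :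
    m = m' := by
  obtain ⟨w, h1, h2, h3⟩ := h
  exact sub_eq_zero.1 (hz.eq_zero ⟨w, h1, h2, by rw [h3, sub_zero, sub_smul]⟩)

/-- `ε t` = the sign from `Fund.sign` in `L₀ ⊔ cj t L₀`; it works in every bigger `L` and is unique (`Fund.eq_zero`, `Hom.mono`);
multiplicative by `Hom.conj` -/
theorem exists_eps [K.Normal] (hle : L₀ ≤ K) (hf : L₀.FG) (hi : ∀ L, Btw L₀ K L → L₀.relIndex L ≠ 0) {z : List G → ℤ}
    (hz : Fund L₀ r z) : ∃ ε : G →* ℤˣ, ∀ t L, Btw L₀ K L → cj t L₀ ≤ L →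
      Hom L r (pu (fun x => t⁻¹ * x * t) z) ((ε t : ℤ) • z) := by
  have hb := loca_btw hle hf
  choose e he using fun t => (hz.up (hb t).1 (hi _ (hb t))).sign (loca_fund hle hf hi hz t (hb t) le_sup_right)
  refine ⟨MonoidHom.mk' e fun s t => ?_, fun t L hL ht => (he t).mono (sup_le hL.1 ht)⟩
  have hL : Btw L₀ K ((L₀ ⊔ cj (s * t) L₀) ⊔ cj t (L₀ ⊔ cj s L₀) ⊔ (L₀ ⊔ cj t L₀)) :=
    ((hb (s * t)).sup (loca_cj_le (hb s).2.1 t) (cj_fg (hb s).2.2 t)).sup (hb t).2.1 (hb t).2.2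
  have h1 := (he s).conj t
  have e1 : pu (fun x => t⁻¹ * x * t) (pu (fun x => s⁻¹ * x * s) z) = pu (fun x => (s * t)⁻¹ * x * (s * t)) z := by
    rw [loca_conj t, loca_conj s, loca_conj (s * t)]
    simp only [List.map_map, Function.comp_def, mul_inv_rev, mul_assoc]
  have e2 : pu (fun x => t⁻¹ * x * t) ((e s : ℤ) • z) = (e s : ℤ) • pu (fun x => t⁻¹ * x * t) z := by
    simp only [loca_conj]
    rfl
  rw [e1, e2] at h1
  have h2 := ((he (s * t)).mono (le_sup_left.trans le_sup_left)).symm.trans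
    ((h1.mono (le_sup_right.trans le_sup_left)).trans (((he t).smul (e s : ℤ)).mono (L' := _) le_sup_right))
  rw [smul_smul] at h2
  exact Units.ext (loca_uniq (hz.up hL.1 (hi _ hL)) h2)

/-- `van`, `surj`: `exists_btw`, `Fund.up`.  `zero`: `Fund.zero`, where `u · z ~ u z u⁻¹ ~ ε u⁻¹ • z` in `L` for `u ∈ L` (`hom_right`; `cj u⁻¹ L₀ ≤ L`).
`right`: `pu_right_Zc`, `Hom.Zc`. -/
theorem exists_loc [K.Normal] (hle : L₀ ≤ K) (hf : L₀.FG) (hi : ∀ L, Btw L₀ K L → L₀.relIndex L ≠ 0) (h : PD L₀ r) :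
    ∃ X : Loc K r, X.L₀ = L₀ := by
  obtain ⟨z, hz⟩ := exists_fund h
  obtain ⟨ε, hε⟩ := exists_eps hle hf hi hz
  have hup : ∀ L, Btw L₀ K L → Fund L r z := fun L hL => hz.up hL.1 (hi L hL)
  have hl : ∀ L, Btw L₀ K L → ∀ u ∈ L, Hom L r (pu (u * ·) z) ((ε u : ℤ) • z) := fun L hL u hu => by
    have hc : cj u⁻¹ L₀ ≤ L := fun x hx => by
      have := L.mul_mem (L.mul_mem hu (hL.1 (mem_cj.1 hx))) (L.inv_mem hu)
      simpa [mul_assoc] using this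
    have hF := loca_fund hle hf hi hz u⁻¹ hL hc
    have h1 := hom_right hF.1 hF.isZ hu
    have e1 : pu (· * u) (pu (fun x => u⁻¹⁻¹ * x * u⁻¹) z) = pu (u * ·) z := by
      rw [loca_conj, loca_pu (f := (· * u)) (g := (· * u⁻¹)) (fun x => by group) (fun x => by group),
        loca_pu (f := (u * ·)) (g := (u⁻¹ * ·)) (fun x => by group) (fun x => by group)]
      simp only [List.map_map, Function.comp_def, mul_assoc, inv_inv, inv_mul_cancel, mul_one]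
    have h2 := hε u⁻¹ L hL hc
    rw [map_inv, Int.units_inv_eq_self] at h2
    exact (e1 ▸ h1).trans h2
  refine ⟨⟨L₀, z, ε, hle, hf, hi, hz.1, hz.isZ, fun A _ q c hq hc => ?_, fun A _ c hc => ?_, fun A _ a ha => ⟨?_, ?_⟩,
    fun A _ a t ha => ?_⟩, rfl⟩
  · obtain ⟨L, -, hL, hc'⟩ := exists_btw (Btw.refl hle hf) hc.1
    exact ((hup L hL).van hq ⟨hc', hc.2⟩).gc_mono hL.2.1
  · obtain ⟨L, -, hL, hc'⟩ := exists_btw (Btw.refl hle hf) hc.1
    obtain ⟨a, h1, h2⟩ := (hup L hL).surj ⟨hc', hc.2⟩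
    exact ⟨a, h1.mono hL.1, h2.gc_mono hL.2.1⟩
  · rintro ⟨b, hb, hb'⟩
    obtain ⟨L, -, hL, hc'⟩ := exists_btw (Btw.refl hle hf) hb
    exact ⟨L, hL, ((hup L hL).zero (hl L hL) (ha.up (hi L hL))).1 ⟨b, hc', hb'⟩⟩
  · rintro ⟨L, hL, h0⟩
    exact (((hup L hL).zero (hl L hL) (ha.up (hi L hL))).2 h0).gc_mono hL.2.1
  · have hL := loca_btw hle hf t
    have hF := loca_fund hle hf hi hz t hL le_sup_right
    have h1 := (hε t _ hL le_sup_right).Zc hF.1 hF.isZ.1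
      (fun l hl => (hup _ hL).1 l (right_ne_zero_of_smul (a := (ε t : ℤ)) hl)) ((hup _ hL).isZ.1.smul _)
      ((ha.right t).up (cj_relIndex_ne_zero hle hf hi t hL.2.1 hL.2.2))
    rw [Zc_smul_left, ← pu_right_Zc] at h1
    exact h1.gc_mono hL.2.1

namespace Loc
variable [K.Normal] (X : Loc K r)

theorem isZ {a : G → A} (ha : FinC X.L₀ a) : (gc K).IsZ r (Zc X.z a) := (Zc_isZ X.on X.cyc ha).gc_mono X.le

theorem finC_right {a : G → A} (ha : FinC X.L₀ a) (t : G) : FinC X.L₀ fun g => (X.ε t : ℤ) • a (g * t⁻¹) := by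
  exact ((ha.right t).up (cj_relIndex_ne_zero X.le X.fg X.fi t X.le X.fg)).smul (X.ε t : ℤ)

theorem locb_cj_le {L : Subgroup G} (hL : L ≤ K) (t : G) : cj t L ≤ K := fun x hx => by
  simpa [mul_assoc] using ‹K.Normal›.conj_mem _ (hL (mem_cj.1 hx)) t⁻¹

theorem locb_cj_cj (s t : G) (L : Subgroup G) : cj t (cj s L) = cj (s * t) L := by
  ext x
  simp [mem_cj, mul_assoc]

theorem locb_cj_one (L : Subgroup G) : cj 1 L = L := by
  ext x
  simp [mem_cj]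

theorem locb_btw {L : Subgroup G} (hL : Btw X.L₀ K L) (t : G) : Btw X.L₀ K (L ⊔ cj t X.L₀) :=
  hL.sup (locb_cj_le X.le t) (cj_fg X.fg t)

/-- `Δ t = [L₀ : L₀ ⊓ cj t L₀] / [cj t L₀ : L₀ ⊓ cj t L₀]` (`Subgroup.relIndex_mul_relIndex`, `cj_relIndex`) -/
theorem exists_modular : ∃ Δ : G →* ℚˣ, ∀ t L, Btw X.L₀ K L → cj t X.L₀ ≤ L →
    (Δ t : ℚ) * X.L₀.relIndex L = (cj t X.L₀).relIndex L := by
  have hb := X.locb_btw (Btw.refl X.le X.fg)
  let δ : G → ℚ := fun t => (cj t X.L₀).relIndex (X.L₀ ⊔ cj t X.L₀) / X.L₀.relIndex (X.L₀ ⊔ cj t X.L₀)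
  have h0 : ∀ L, Btw X.L₀ K L → (X.L₀.relIndex L : ℚ) ≠ 0 := fun L hL => Nat.cast_ne_zero.2 (X.fi L hL)
  have h1 : ∀ t L, Btw X.L₀ K L → cj t X.L₀ ≤ L → δ t * X.L₀.relIndex L = (cj t X.L₀).relIndex L := fun t L hL ht => by
    rw [← Subgroup.relIndex_mul_relIndex _ _ L le_sup_left (sup_le hL.1 ht),
      ← Subgroup.relIndex_mul_relIndex _ _ L le_sup_right (sup_le hL.1 ht), Nat.cast_mul, Nat.cast_mul, ← mul_assoc,
      div_mul_cancel₀ _ (h0 _ (hb t))]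
  have h2 : ∀ t, δ t ≠ 0 := fun t => div_ne_zero
    (Nat.cast_ne_zero.2 (cj_relIndex_ne_zero X.le X.fg X.fi t (hb t).2.1 (hb t).2.2)) (h0 _ (hb t))
  refine ⟨MonoidHom.mk' (fun t => Units.mk0 (δ t) (h2 t)) fun s t => Units.ext ?_, h1⟩
  have hL := X.locb_btw (hb t) (s * t)
  have ht : cj t X.L₀ ≤ X.L₀ ⊔ cj t X.L₀ ⊔ cj (s * t) X.L₀ := le_sup_of_le_left le_sup_right
  have hst : cj (s * t) X.L₀ ≤ X.L₀ ⊔ cj t X.L₀ ⊔ cj (s * t) X.L₀ := le_sup_right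
  generalize X.L₀ ⊔ cj t X.L₀ ⊔ cj (s * t) X.L₀ = L at hL ht hst
  have e := h1 s (cj t⁻¹ L) ⟨fun x hx => ht (by simpa [mem_cj, mul_assoc] using hx), locb_cj_le hL.2.1 _, cj_fg hL.2.2 _⟩
    fun x hx => hst (by simpa [mem_cj, mul_assoc] using hx)
  rw [← cj_relIndex t X.L₀, ← cj_relIndex t (cj s X.L₀), locb_cj_cj, locb_cj_cj, inv_mul_cancel, locb_cj_one,
    ← h1 t L hL ht, ← h1 _ L hL hst, ← mul_assoc] at e
  exact (mul_right_cancel₀ (h0 L hL) e).symm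

include X in
/-- `ssum L₀ ε a = ε * Δ` (`exists_ssum_eq`; `Δ u = 1` for `u ∈ K`); `ssum_up_eq`, `ssum_cj` -/
theorem exists_haar : ∃ e : List G → ℚ, (gc K).IsZ r e ∧ ¬ (gc K).IsB r e ∧ ∀ s, (gc K).IsB r (pu (· * s) e - e) := by
  obtain ⟨Δ, hΔ⟩ := X.exists_modular
  have h0 : ∀ L, Btw X.L₀ K L → (X.L₀.relIndex L : ℚ) ≠ 0 := fun L hL => Nat.cast_ne_zero.2 (X.fi L hL)
  have h1 : ∀ u ∈ K, (Δ u : ℚ) = 1 := fun u hu => by
    have hL := (Btw.refl X.le X.fg).sup (Subgroup.zpowers_le.2 hu) ⟨{u}, by simp [Subgroup.zpowers_eq_closure]⟩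
    have hu' : u ∈ X.L₀ ⊔ Subgroup.zpowers u := Subgroup.mem_sup_right (Subgroup.mem_zpowers u)
    generalize X.L₀ ⊔ Subgroup.zpowers u = L at hL hu'
    have e : cj u L = L := Subgroup.ext fun x => by
      rw [mem_cj, L.mul_mem_cancel_right (L.inv_mem hu'), L.mul_mem_cancel_left hu']
    have e' := hΔ u L hL (e ▸ fun x hx => hL.1 hx)
    conv_rhs at e' => rw [← e, cj_relIndex]
    exact (mul_eq_right₀ (h0 L hL)).1 e'
  let f : G → ℚ := fun g => (X.ε g : ℤ) • (Δ g : ℚ)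
  have hf : ∀ g, ∀ u ∈ K, ∀ s, f (g * u * s) = (X.ε u : ℤ) • f (g * s) := fun g u hu s => by
    simp only [f, map_mul, Units.val_mul, h1 u hu, mul_one, smul_smul]
    congr 1
    ring
  obtain ⟨a, ha, haf⟩ := exists_ssum_eq (L := X.L₀) (ε := X.ε) (f := f) fun g u hu => by
    simpa using hf g u (X.le hu) 1
  have hup : ∀ L, Btw X.L₀ K L → ssum L X.ε a = (X.L₀.relIndex L : ℤ) • f := fun L hL =>
    haf ▸ ssum_up_eq hL.1 (X.fi L hL) ha fun g u hu => by simpa [haf] using hf g u (hL.2.1 hu) 1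
  refine ⟨Zc X.z a, X.isZ ha, fun h => ?_, fun s => ?_⟩
  · obtain ⟨L, hL, e⟩ := (X.zero ℚ a ha).1 h
    have := congrFun ((hup L hL).symm.trans e) 1
    simp [f, X.fi L hL] at this
  · refine (X.right ℚ a s ha).trans ?_
    rw [← Zc_sub X.on X.cyc.1 (X.finC_right ha s) ha]
    have hL := X.locb_btw (Btw.refl X.le X.fg) s
    have hs : cj s X.L₀ ≤ X.L₀ ⊔ cj s X.L₀ := le_sup_right
    generalize X.L₀ ⊔ cj s X.L₀ = L at hL hs
    refine (X.zero ℚ _ ((X.finC_right ha s).sub ha)).2 ⟨L, hL, ?_⟩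
    have hi := cj_relIndex_ne_zero X.le X.fg X.fi s hL.2.1 hL.2.2
    have e1 := ssum_up_eq (ε := X.ε) hs hi (ha.right s) fun g u hu => by
      rw [ssum_cj, ssum_cj, haf, hf g u (hL.2.1 hu)]
    have e2 := ssum_smul (ε := X.ε) ((ha.right s).up hi) (X.ε s : ℤ)
    rw [ssum_sub ((X.finC_right ha s).up (X.fi L hL)) (ha.up (X.fi L hL)), hup L hL, sub_eq_zero]
    refine e2.trans (funext fun g => ?_)
    have e3 : ((X.ε s : ℤ) : ℚ) * (X.ε s : ℤ) = 1 := by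
      rw [← Int.cast_mul, ← Units.val_mul, Int.units_mul_self]; simp
    rw [e1, Pi.smul_apply, Pi.smul_apply, Pi.smul_apply, ssum_cj, haf]
    simp only [f, zsmul_eq_mul, Int.cast_natCast, ← hΔ s L hL hs, map_mul, map_inv,
      Units.val_mul, Int.cast_mul, Int.units_inv_eq_self, Units.val_inv_eq_inv_val]
    field_simp
    rw [sq, e3, one_mul]

include X in
/-- the homology has no torsion -/
theorem of_smul {e : List G → ℤ} (he : (gc K).IsZ r e) {m : ℤ} (hm : m ≠ 0) (h : (gc K).IsB r (m • e)) : (gc K).IsB r e := by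
  obtain ⟨a, ha, h1⟩ := X.surj ℤ e he
  have h2 : (gc K).IsB r (Zc X.z (m • a)) := by
    have := h.sub (h1.smul m)
    rwa [smul_sub, sub_sub_cancel, ← Zc_smul X.on X.cyc.1 ha] at this
  obtain ⟨L, hL, h3⟩ := (X.zero ℤ _ (ha.smul m)).1 h2
  rw [ssum_smul (ha.up (X.fi L hL))] at h3
  exact h1.of_sub ((X.zero ℤ a ha).2 ⟨L, hL, (smul_eq_zero.1 h3).resolve_left hm⟩)

theorem locc_ne {L L' : Subgroup G} (hL : Btw X.L₀ K L) (hL' : Btw X.L₀ K L') : L.relIndex L' ≠ 0 :=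
  ne_zero_of_dvd_ne_zero (X.fi L' hL') (Subgroup.relIndex_dvd_of_le_left L' hL.1)

theorem locc_bound (T : Finset G) (M : G → Subgroup G) (hM : ∀ g, Btw X.L₀ K (M g)) :
    ∃ L, Btw X.L₀ K L ∧ ∀ g ∈ T, M g ≤ L := by
  classical
  induction T using Finset.induction_on with
  | empty => exact ⟨X.L₀, Btw.refl X.le X.fg, by simp⟩
  | insert g T _ ih =>
    obtain ⟨L, h1, h2⟩ := ih
    refine ⟨L ⊔ M g, h1.sup (hM g).2.1 (hM g).2.2, fun x hx => ?_⟩
    rcases Finset.mem_insert.1 hx with rfl | hx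
    · exact le_sup_right
    · exact (h2 x hx).trans le_sup_left

theorem locc_rel {e : List G → ℤ} (he : (gc K).IsZ r e) {a : G → ℤ} (ha : FinC X.L₀ a)
    (hea : (gc K).IsB r (e - Zc X.z a)) (g : G) {η : ℤ} (hη : (gc K).IsB r (pu (g * ·) e - η • e)) :
    ∃ M, Btw X.L₀ K M ∧ ∀ L, Btw X.L₀ K L → M ≤ L → ∀ x, ssum L X.ε a (g⁻¹ * x) = η * ssum L X.ε a x := by
  have hb : FinC X.L₀ ((fun x => a (g⁻¹ * x)) - η • a) := (ha.left g⁻¹).sub (ha.smul η)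
  have h1 : (gc K).IsB r (Zc X.z ((fun x => a (g⁻¹ * x)) - η • a)) := by
    rw [Zc_sub X.on X.cyc.1 (ha.left g⁻¹) (ha.smul η), Zc_smul X.on X.cyc.1 ha, ← pu_left_Zc]
    have h2 := hea.pu_sub he.1 (X.isZ ha).1 (mor_left K g)
    have h3 := (hη.sub h2).add (hea.smul η)
    convert h3 using 1
    rw [smul_sub]
    abel
  obtain ⟨M, hM, h0⟩ := (X.zero ℤ _ hb).1 h1
  refine ⟨M, hM, fun L hL hle x => ?_⟩
  have h4 := ssum_up_zero hle (X.locc_ne hM hL) (hb.up (X.fi M hM)) h0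
  have ha' := ha.up (X.fi L hL)
  rw [ssum_sub (ha'.left g⁻¹) (ha'.smul η), ssum_smul ha'] at h4
  have h5 := congrFun h4 x
  rw [Pi.sub_apply, ssum_left, Pi.smul_apply, smul_eq_mul, Pi.zero_apply, sub_eq_zero] at h5
  exact h5

include X in
/-- `e ~ Zc z a`.  For the finitely many `g ∈ T ∪ T⁻¹` (`T` generates `G`) there is one `L` with `f (g⁻¹ * x) = η g * f x`, `f = ssum L ε a`
(`pu_left_Zc`, `zero`, `ssum_up_zero`); `f` has no zero.  If `K` is not finitely generated take `L' = L ⊔ ⟨κ⟩`, `κ ∈ K \ L`,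
`m = [L' : L] ≥ 2`.  `f' = ssum L' ε a` satisfies the same relations, so `f' x * f 1 = f x * f' 1`, hence
`f (x * u) = ε u * f x` for `u ∈ L'` and `f' = m • f` (`ssum_up_eq`).  Take `a'` with `ssum L' ε a' = f`, `e' = Zc z a'`. -/
theorem exists_div [Group.FG G] (hK : ¬ K.FG) {e : List G → ℤ} (he : (gc K).IsZ r e) (h0 : ¬ (gc K).IsB r e)
    (hη : ∀ g : G, ∃ η : ℤ, (gc K).IsB r (pu (g * ·) e - η • e)) :
    ∃ (m : ℤ) (e' : List G → ℤ), 2 ≤ m ∧ (gc K).IsZ r e' ∧ (gc K).IsB r (e - m • e') := by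
  classical
  obtain ⟨a, ha, hea⟩ := X.surj ℤ e he
  choose η hη using hη
  choose M hM hrel using fun g => X.locc_rel he ha hea g (hη g)
  obtain ⟨T, hT⟩ := Group.fg_def.1 (inferInstance : Group.FG G)
  obtain ⟨L, hL, hLM⟩ := X.locc_bound (T ∪ T⁻¹) M hM
  have key : ∀ g : G, ∃ θ : ℤ, ∀ L', Btw X.L₀ K L' → L ≤ L' → ∀ x,
      ssum L' X.ε a (g * x) = θ * ssum L' X.ε a x := fun g => by
    have hg : g ∈ Subgroup.closure (T : Set G) := hT ▸ Subgroup.mem_top g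
    induction hg using Subgroup.closure_induction'' with
    | mem x hx =>
      refine ⟨η x⁻¹, fun L' h1 h2 y => ?_⟩
      have := hrel x⁻¹ L' h1 ((hLM _ (Finset.mem_union_right _ (Finset.inv_mem_inv hx))).trans h2) y
      rwa [inv_inv] at this
    | inv_mem x hx =>
      exact ⟨η x, fun L' h1 h2 y => hrel x L' h1 ((hLM _ (Finset.mem_union_left _ hx)).trans h2) y⟩
    | one => exact ⟨1, fun L' _ _ y => by rw [one_mul, one_mul]⟩
    | mul x y _ _ hx hy =>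
      obtain ⟨θ, h1⟩ := hx
      obtain ⟨θ', h2⟩ := hy
      exact ⟨θ * θ', fun L' a1 a2 w => by rw [mul_assoc, h1 L' a1 a2, h2 L' a1 a2, mul_assoc]⟩
  choose θ hθ using key
  have hθ1 : ∀ L', Btw X.L₀ K L' → L ≤ L' → ∀ x, ssum L' X.ε a x = θ x * ssum L' X.ε a 1 := fun L' h1 h2 x => by
    rw [← hθ x L' h1 h2, mul_one]
  obtain ⟨κ, hκK, hκL⟩ : ∃ κ ∈ K, κ ∉ L := by
    by_contra hc
    push Not at hc
    exact hK (le_antisymm hL.2.1 hc ▸ hL.2.2)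
  have hL' : Btw X.L₀ K (L ⊔ Subgroup.zpowers κ) :=
    hL.sup ((Subgroup.zpowers_le).2 hκK) ⟨{κ}, by rw [Finset.coe_singleton, Subgroup.zpowers_eq_closure]⟩
  generalize hL'' : L ⊔ Subgroup.zpowers κ = L' at hL'
  have hle : L ≤ L' := hL'' ▸ le_sup_left
  have hκ' : κ ∈ L' := hL'' ▸ Subgroup.mem_sup_right (Subgroup.mem_zpowers κ)
  have hne : ssum L' X.ε a 1 ≠ 0 := fun h => h0 (hea.of_sub ((X.zero ℤ a ha).2 ⟨L', hL', funext fun x => by
    rw [hθ1 L' hL' hle x, h, mul_zero, Pi.zero_apply]⟩))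
  have hf : ∀ g, ∀ u ∈ L', ssum L X.ε a (g * u) = (X.ε u : ℤ) • ssum L X.ε a g := fun g u hu => by
    have h1 := ssum_right (ε := X.ε) a g hu
    rw [hθ1 L' hL' hle (g * u), hθ1 L' hL' hle g, smul_eq_mul, ← mul_assoc] at h1
    rw [hθ1 L hL le_rfl (g * u), hθ1 L hL le_rfl g, mul_right_cancel₀ hne h1, smul_eq_mul, mul_assoc]
  have hi := X.locc_ne hL hL'
  have hup := ssum_up_eq hle hi (ha.up (X.fi L hL)) hf
  obtain ⟨a', ha', hs⟩ := exists_ssum_eq hf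
  have ha0 : FinC X.L₀ a' := ha'.mono hL'.1
  refine ⟨L.relIndex L', Zc X.z a', ?_, X.isZ ha0, ?_⟩
  · have h1 : L.relIndex L' ≠ 1 := fun h => hκL (Subgroup.relIndex_eq_one.1 h hκ')
    omega
  · refine hea.trans ?_
    rw [← Zc_smul X.on X.cyc.1 ha0, ← Zc_sub X.on X.cyc.1 ha (ha0.smul _)]
    refine (X.zero ℤ _ (ha.sub (ha0.smul _))).2 ⟨L', hL', ?_⟩
    rw [ssum_sub (ha.up (X.fi L' hL')) (ha'.smul _), ssum_smul ha', hs, hup, sub_self]

end Loc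

end Crest.Agent.R182
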