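import Crest.Agent.R182.E.Defs

/-! R182/E: kernel operators. -/

set_option autoImplicit false
set_option linter.unusedVariables false
set_option linter.unusedSectionVars false
open Set Filter Topology MeasureTheory Crest.GroupTheory
open scoped Pointwise commutatorElement

noncomputable section
namespace Crest.Agent.R182

variable {I I' I'' A A' : Type} [AddCommGroup A] [AddCommGroup A'] {k k' : I → (I' →₀ ℤ)} {s : Set I} {c c' : I → A}

theorem lext_single (k : I → (I' →₀ ℤ)) (i : I) (n : ℤ) : lext k (Finsupp.single i n) = n • k i := by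
  exact Finsupp.linearCombination_single _ _ _

theorem op_lext_apply (k : I → (I' →₀ ℤ)) (v : I →₀ ℤ) (j : I') : lext k v j = ∑ᶠ i, v i * k i j := by
  rw [finsum_eq_sum_of_support_subset (s := v.support) _ fun i hi => Finsupp.mem_support_iff.2 (left_ne_zero_of_mul hi), lext,
    Finsupp.linearCombination_apply, Finsupp.sum, Finsupp.finsetSum_apply]
  rfl

theorem lext_ne_zero {v : I →₀ ℤ} {j : I'} (h : lext k v j ≠ 0) : ∃ i, v i ≠ 0 ∧ k i j ≠ 0 := by
  rw [op_lext_apply] at h
  by_contra hn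
  push Not at hn
  refine h (finsum_eq_zero_of_forall_eq_zero fun i => ?_)
  by_cases hi : v i = 0
  · rw [hi, zero_mul]
  · rw [hn i hi, mul_zero]

theorem Ok.mono {s' : Set I} (h : Ok k s) (hs : s' ⊆ s) : Ok k s' := by
  exact fun j => (h j).subset fun i hi => ⟨hs hi.1, hi.2⟩

theorem Ok.add (h : Ok k s) (h' : Ok k' s) : Ok (k + k') s := by
  refine fun j => ((h j).union (h' j)).subset fun i hi => ?_
  by_contra hn
  simp only [mem_union, mem_ofPred_eq, hi.1, true_and, not_or, not_not] at hn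
  exact hi.2 (by simp [hn.1, hn.2])

theorem Ok.sub (h : Ok k s) (h' : Ok k' s) : Ok (k - k') s := by
  refine fun j => ((h j).union (h' j)).subset fun i hi => ?_
  by_contra hn
  simp only [mem_union, mem_ofPred_eq, hi.1, true_and, not_or, not_not] at hn
  exact hi.2 (by simp [hn.1, hn.2])

theorem Ok.comp {m : I' → (I'' →₀ ℤ)} {s' : Set I'} (h : Ok k s) (h' : Ok m s') (hs : ∀ i ∈ s, ∀ j, k i j ≠ 0 → j ∈ s') :
    Ok (fun i => lext m (k i)) s := by
  refine fun l => ((h' l).biUnion fun j _ => h j).subset fun i hi => ?_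
  obtain ⟨j, h1, h2⟩ := lext_ne_zero hi.2
  exact mem_biUnion (x := j) ⟨hs i hi.1 j h1, h2⟩ ⟨hi.1, h1⟩

theorem op_zero (k : I → (I' →₀ ℤ)) : op k (0 : I → A) = 0 := by
  funext j
  simp [op]

theorem op_kzero (c : I → A) : op (0 : I → (I' →₀ ℤ)) c = 0 := by
  funext j
  simp [op]

theorem op_ne_zero {j : I'} (h : op k c j ≠ 0) : ∃ i, c i ≠ 0 ∧ k i j ≠ 0 := by
  by_contra hn
  push Not at hn
  refine h (finsum_eq_zero_of_forall_eq_zero fun i => ?_)
  by_cases hi : c i = 0
  · rw [hi, smul_zero]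
  · rw [hn i hi, zero_smul]

theorem op_congr (h : ∀ i, c i ≠ 0 → k i = k' i) : op k c = op k' c := by
  refine funext fun j => finsum_congr fun i => ?_
  by_cases hi : c i = 0
  · rw [hi, smul_zero, smul_zero]
  · rw [h i hi]

theorem op_neg (k : I → (I' →₀ ℤ)) (c : I → A) : op k (-c) = -op k c := by
  funext j
  simp only [op, Pi.neg_apply, smul_neg, finsum_neg_distrib]

theorem op_fin (hk : Ok k s) (hc : ∀ i, c i ≠ 0 → i ∈ s) (j : I') : Function.HasFiniteSupport fun i => k i j • c i :=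
  (hk j).subset fun i hi => ⟨hc i (right_ne_zero_of_smul hi), left_ne_zero_of_smul hi⟩

theorem op_add (hk : Ok k s) (hc : ∀ i, c i ≠ 0 → i ∈ s) (hc' : ∀ i, c' i ≠ 0 → i ∈ s) :
    op k (c + c') = op k c + op k c' := by
  funext j
  simp only [op, Pi.add_apply, smul_add]
  exact finsum_add_distrib (op_fin hk hc j) (op_fin hk hc' j)

theorem op_sub (hk : Ok k s) (hc : ∀ i, c i ≠ 0 → i ∈ s) (hc' : ∀ i, c' i ≠ 0 → i ∈ s) :
    op k (c - c') = op k c - op k c' := by
  funext j
  simp only [op, Pi.sub_apply, smul_sub]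
  exact finsum_sub_distrib (op_fin hk hc j) (op_fin hk hc' j)

theorem op_kadd (hk : Ok k s) (hk' : Ok k' s) (hc : ∀ i, c i ≠ 0 → i ∈ s) : op (k + k') c = op k c + op k' c := by
  funext j
  simp only [op, Pi.add_apply, Finsupp.add_apply, add_smul]
  exact finsum_add_distrib (op_fin hk hc j) (op_fin hk' hc j)

theorem op_ksub (hk : Ok k s) (hk' : Ok k' s) (hc : ∀ i, c i ≠ 0 → i ∈ s) : op (k - k') c = op k c - op k' c := by
  funext j
  simp only [op, Pi.sub_apply, Finsupp.sub_apply, sub_smul]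
  exact finsum_sub_distrib (op_fin hk hc j) (op_fin hk' hc j)

theorem op_map (φ : A →+ A') (hk : Ok k s) (hc : ∀ i, c i ≠ 0 → i ∈ s) : op k (φ ∘ c) = φ ∘ op k c := by
  funext j
  simp only [op, Function.comp_apply, φ.map_finsum (op_fin hk hc j), map_zsmul]

theorem op_single (c : I → A) : op (fun i => Finsupp.single i 1) c = c := by
  funext j
  refine (finsum_eq_single _ j fun i hi => ?_).trans (by simp)
  rw [Finsupp.single_eq_of_ne' hi, zero_smul]

theorem op_single_apply {f : I → I'} (hf : Function.Injective f) (c : I → A) (i : I) :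
    op (fun i => Finsupp.single (f i) 1) c (f i) = c i := by
  refine (finsum_eq_single _ i fun x hx => ?_).trans (by simp)
  rw [Finsupp.single_eq_of_ne' (hf.ne hx), zero_smul]

theorem op_single_of_notMem {f : I → I'} (c : I → A) {j : I'} (hj : j ∉ range f) :
    op (fun i => Finsupp.single (f i) 1) c j = 0 := by
  refine finsum_eq_zero_of_forall_eq_zero fun i => ?_
  rw [Finsupp.single_eq_of_ne' fun e => hj ⟨i, e⟩, zero_smul]

/-- both sides are the finite double sum over `j ∈ {j ∈ s' | m j l ≠ 0}`, `i ∈ ⋃ j, {i ∈ s | k i j ≠ 0}` (`finsum_eq_sum_of_support_subset`,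
`Finset.sum_comm`) -/
theorem op_comp {m : I' → (I'' →₀ ℤ)} {s' : Set I'} (hk : Ok k s) (hm : Ok m s') (hs : ∀ i ∈ s, ∀ j, k i j ≠ 0 → j ∈ s')
    (hc : ∀ i, c i ≠ 0 → i ∈ s) : op m (op k c) = op (fun i => lext m (k i)) c := by
  funext l
  have h1 : op m (op k c) l = ∑ j ∈ (hm l).toFinset, ∑ᶠ i, m j l • k i j • c i := by
    refine (finsum_eq_sum_of_support_subset_of_finite _ (fun j hj => ?_) (hm l)).trans
      (Finset.sum_congr rfl fun j _ => smul_finsum' _ (op_fin hk hc j))
    obtain ⟨i, h1, h2⟩ := op_ne_zero (right_ne_zero_of_smul hj)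
    exact ⟨hs i (hc i h1) j h2, left_ne_zero_of_smul hj⟩
  rw [h1, sum_finsum_comm _ _ fun j _ => (op_fin hk hc j).subset fun i hi => right_ne_zero_of_smul hi]
  refine finsum_congr fun i => ?_
  by_cases hi : c i = 0
  · simp [hi]
  rw [op_lext_apply, finsum_eq_sum_of_support_subset_of_finite _ (fun j hj => ?_) (hm l), Finset.sum_smul]
  · exact Finset.sum_congr rfl fun j _ => by rw [smul_smul, mul_comm]
  · exact ⟨hs i (hc i hi) j (left_ne_zero_of_mul hj), right_ne_zero_of_mul hj⟩

end Crest.Agent.R182
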