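import Crest.Agent.R182.E.Tower
import Crest.Agent.R182.A.Grp3

/-! R182/E: virtually polycyclic groups are coarse Poincare duality groups. -/

set_option autoImplicit false
set_option linter.unusedVariables false
set_option linter.unusedSectionVars false
open Set Filter Topology MeasureTheory Crest.GroupTheory
open scoped Pointwise commutatorElement

noncomputable section
namespace Crest.Agent.R182

variable {G : Type} [Group G]

theorem pda_ctrl [Subsingleton G] (E : Set (G × G)) : (gc (⊤ : Subgroup G)).ctrl E :=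
  ⟨univ, Set.toFinite _, fun _ _ => Subgroup.mem_top _, fun _ _ => mem_univ _⟩

theorem pda_ker [Subsingleton G] (q : ℕ) : (gc (⊤ : Subgroup G)).Ker (gc (⊤ : Subgroup G)) q (q + 1)
    fun l => Finsupp.single ((1 : G) :: l) 1 := by
  classical
  intro E hE
  refine ⟨fun j => (Set.finite_singleton j.tail).subset ?_, univ, pda_ctrl _, fun l hl l' h => ?_⟩
  · rintro i ⟨-, hi⟩
    have := (Finsupp.single_apply_ne_zero.1 hi).1
    simp [this]
  · have := (Finsupp.single_apply_ne_zero.1 h).1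
    subst this
    exact ⟨by simp [hl.1], fun _ _ _ _ => mem_univ _⟩

theorem pda_one [Subsingleton G] {l : List G} (hl : l.length = 0 + 1) : l = [1] := by
  obtain ⟨a, rfl⟩ := List.length_eq_one_iff.1 hl
  rw [Subsingleton.elim a 1]

/-- `z = Pi.single [1] 1`-like; in positive degrees use the cone kernel `l ↦ single (1 :: l) 1` (`bd'_cone`); degree zero: no boundaries, as
`bd' [1, 1] = 0` -/
theorem pd_trivial [Subsingleton G] : PD G 0 := by
  classical
  have hz : (gc (⊤ : Subgroup G)).IsC 0 (fun l : List G => if l = [1] then (1 : ℤ) else 0) := by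
    refine ⟨univ, pda_ctrl _, fun l hl => ?_⟩
    have : l = [1] := by
      by_contra h
      exact hl (if_neg h)
    subst this
    exact ⟨rfl, fun _ _ _ _ => mem_univ _⟩
  refine ⟨fun l => if l = [1] then 1 else 0, ⟨hz, hz.dd_zero⟩, ?_, ?_, ?_⟩
  · intro A _ q c hq hc
    obtain ⟨p, rfl⟩ := Nat.exists_eq_succ_of_ne_zero hq
    refine ⟨_, (pda_ker (p + 1)).isC hc.1, ?_⟩
    have h1 := (pda_ker (G := G) (p + 1)).op_op (Crs.ker_bd _ (p + 1 + 1)) hc.1
    have h2 := (Crs.ker_bd (gc (⊤ : Subgroup G)) (p + 1)).op_op (pda_ker p) hc.1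
    have k1 := (pda_ker (G := G) (p + 1)).comp (Crs.ker_bd _ (p + 1 + 1))
    have k2 := (Crs.ker_bd (gc (⊤ : Subgroup G)) (p + 1)).comp (pda_ker p)
    obtain ⟨E, hE, hs⟩ := hc.1
    have h3 := op_kadd (k1 E hE).1 (k2 E hE).1 hs
    have h4 : op bd' c = 0 := hc.2
    rw [← h1, ← h2, h4, op_zero, add_zero] at h3
    show op bd' _ = c
    rw [← h3]
    refine (op_congr fun l hl => ?_).trans (op_single c)
    exact bd'_cone (1 : G) (by rw [(hs l hl).1]; omega)
  · intro A _ c hc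
    refine ⟨c [1], ?_⟩
    have : c - tens (fun l : List G => if l = [1] then (1 : ℤ) else 0) (c [1]) = 0 := by
      obtain ⟨E, hE, hs⟩ := hc.1
      funext l
      by_cases hl : l = [1]
      · subst hl
        simp [tens]
      · have : c l = 0 := by
          by_contra h
          exact hl (pda_one (hs l h).1)
        simp [tens, hl, this]
    rw [this]
    exact Crs.IsB.zero
  · rintro A _ a ⟨b, ⟨E, hE, hs⟩, hb⟩
    have h0 : dd b = 0 := by
      refine (op_congr (k' := 0) fun l hl => ?_).trans (op_kzero b)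
      obtain ⟨x, y, rfl⟩ := List.length_eq_two.1 (hs l hl).1
      rw [Subsingleton.elim x 1, Subsingleton.elim y 1]
      simp [bd', bd, Finsupp.mapDomain_single]
    have := congrFun (hb.symm.trans h0) [1]
    simpa [tens] using this

section pdb
variable {K : Subgroup G} [K.Normal] {r : ℕ} (X : Loc K r) (hX : X.L₀ = K) {A : Type} [AddCommGroup A]
include hX

theorem pdb_zero {a : G → A} (ha : FinC X.L₀ a) : (gc K).IsB r (Zc X.z a) ↔ ssum X.L₀ X.ε a = 0 := by
  rw [X.zero A a ha]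
  refine ⟨fun ⟨L, hL, h0⟩ => ?_, fun h0 => ⟨_, Btw.refl X.le X.fg, h0⟩⟩
  rwa [← le_antisymm hL.1 (hL.2.1.trans hX.ge)] at h0

theorem pdb_congr {a a' : G → A} (ha : FinC X.L₀ a) (ha' : FinC X.L₀ a') :
    (gc K).IsB r (Zc X.z a - Zc X.z a') ↔ ssum X.L₀ X.ε a = ssum X.L₀ X.ε a' := by
  rw [← Zc_sub X.on X.cyc.1 ha ha', pdb_zero X hX (ha.sub ha'), ssum_sub ha ha', sub_eq_zero]

theorem pdb_T {a : G → A} (ha : FinC X.L₀ a) (t g : G) :
    ssum X.L₀ X.ε (fun g => (X.ε t : ℤ) • a (g * t⁻¹)) g = (X.ε t : ℤ) • ssum X.L₀ X.ε a (g * t⁻¹) := by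
  have hc : cj t X.L₀ = X.L₀ := by
    rw [hX]
    ext x
    rw [mem_cj]
    exact ⟨fun hx => by simpa [mul_assoc] using Subgroup.Normal.conj_mem' inferInstance _ hx t,
      fun hx => Subgroup.Normal.conj_mem inferInstance _ hx t⟩
  have h1 := ha.right t
  have h2 := ssum_cj (L := X.L₀) (ε := X.ε) a t g
  rw [hc] at h1 h2
  rw [← h2]
  exact congrFun (ssum_smul h1 (X.ε t : ℤ)) g

end pdb

theorem pdb_solve {A : Type} [AddCommGroup A] (φ : ℤ → A) : ∃ ψ : ℤ → A, ∀ j, ψ (j - 1) - ψ j = φ j := by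
  refine ⟨fun j => ∑ i ∈ Finset.Ioc j 0, φ i - ∑ i ∈ Finset.Ioc 0 j, φ i, fun j => ?_⟩
  rcases le_or_gt j 0 with hj | hj
  · have e : Finset.Ioc (j - 1) 0 = insert j (Finset.Ioc j 0) := by
      ext i; simp only [Finset.mem_Ioc, Finset.mem_insert]; omega
    simp only
    rw [e, Finset.sum_insert (by simp), Finset.Ioc_eq_empty_of_le hj, Finset.Ioc_eq_empty_of_le (show j - 1 ≤ 0 by omega)]
    abel
  · have e : Finset.Ioc 0 j = insert j (Finset.Ioc 0 (j - 1)) := by
      ext i; simp only [Finset.mem_Ioc, Finset.mem_insert]; omega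
    simp only
    rw [e, Finset.sum_insert (by simp), Finset.Ioc_eq_empty_of_le hj.le,
      Finset.Ioc_eq_empty_of_le (show 0 ≤ j - 1 by omega)]
    abel

theorem pdb_sq {A : Type} [AddCommGroup A] (u : ℤˣ) (x : A) : (u : ℤ) • (u : ℤ) • x = x := by
  rw [smul_smul, ← Units.val_mul, Int.units_mul_self, Units.val_one, one_smul]

theorem pdb_mem {h : G →* Multiplicative ℤ} {t : G} (ht : hv h t = 1) (g : G) : (t ^ hv h g)⁻¹ * g ∈ h.ker := by
  rw [MonoidHom.mem_ker, ← toAdd_eq_zero]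
  change hv h _ = 0
  rw [hv_mul, hv_inv, hv_zpow, ht]
  ring

theorem pdb_ker {h : G →* Multiplicative ℤ} {u : G} (hu : u ∈ h.ker) : hv h u = 0 := by
  rw [hv, MonoidHom.mem_ker.1 hu, toAdd_one]

/-- the normalised coset sums only depend on the height -/
theorem pdb_norm {h : G →* Multiplicative ℤ} {t : G} (ht : hv h t = 1) {r : ℕ} (X : Loc h.ker r) (hX : X.L₀ = h.ker)
    {A : Type} [AddCommGroup A] (a : G → A) (g : G) :
    ssum X.L₀ X.ε a g = (X.ε g : ℤ) • (X.ε (t ^ hv h g) : ℤ) • ssum X.L₀ X.ε a (t ^ hv h g) := by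
  have := ssum_right (L := X.L₀) (ε := X.ε) a (t ^ hv h g) (hX.ge (pdb_mem ht g))
  rw [mul_inv_cancel_left] at this
  rw [this, smul_smul, map_mul, map_inv, Int.units_inv_eq_self, Units.val_mul, mul_comm]

/-- for `K = ker h` finitely generated (`L₀ = K`): `ssum K ε` is determined by its values at the powers of `t`; solve
`ε t • x (j - 1) - x j = ssum K ε a (t ^ j)` on `ℤ` and use `exists_ssum_eq` -/
theorem Loc.coker {h : G →* Multiplicative ℤ} {t : G} (ht : hv h t = 1) {r : ℕ} (X : Loc h.ker r) (hX : X.L₀ = h.ker)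
    {A : Type} [AddCommGroup A] {c : List G → A} (hc : (gc h.ker).IsZ r c) :
    ∃ e, (gc h.ker).IsZ r e ∧ (gc h.ker).IsB r (c - (pu (· * t) e - e)) := by
  obtain ⟨a, ha, h1⟩ := X.surj A c hc
  obtain ⟨ψ, hψ⟩ := pdb_solve fun j => (X.ε (t ^ j) : ℤ) • ssum X.L₀ X.ε a (t ^ j)
  obtain ⟨a', ha', hs⟩ := exists_ssum_eq (L := X.L₀) (ε := X.ε) (f := fun g => (X.ε g : ℤ) • ψ (hv h g)) fun g u hu => by
    rw [hv_mul, pdb_ker (hX.le hu), add_zero, map_mul, Units.val_mul, mul_comm, mul_smul]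
  have hT := X.finC_right ha' t
  have h2 := X.right A a' t ha'
  have h3 := (pdb_congr X hX ha (hT.sub ha')).2 (by
    rw [ssum_sub hT ha']
    funext g
    rw [Pi.sub_apply, pdb_T X hX ha', hs, pdb_norm ht X hX a g, ← hψ, smul_sub]
    simp only [map_mul, map_inv, Int.units_inv_eq_self, Units.val_mul, hv_mul, hv_inv, ht]
    rw [mul_comm, mul_smul, pdb_sq, sub_eq_add_neg (hv h g)])
  rw [Zc_sub X.on X.cyc.1 hT ha'] at h3
  refine ⟨_, X.isZ ha', ?_⟩
  convert (h1.sub h2).add h3 using 1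
  abel

/-- `e₀ = Zc z a₀` with `ssum K ε a₀ = ε` -/
theorem Loc.ker {h : G →* Multiplicative ℤ} {t : G} (ht : hv h t = 1) {r : ℕ} (X : Loc h.ker r) (hX : X.L₀ = h.ker) :
    ∃ e₀ : List G → ℤ, (gc h.ker).IsZ r e₀ ∧ (gc h.ker).IsB r (pu (· * t) e₀ - e₀) ∧
      (∀ (A : Type) [AddCommGroup A] (e : List G → A), (gc h.ker).IsZ r e → (gc h.ker).IsB r (pu (· * t) e - e) →
        ∃ x : A, (gc h.ker).IsB r (e - tens e₀ x)) ∧
      ∀ (A : Type) [AddCommGroup A] (x : A), (gc h.ker).IsB r (tens e₀ x) → x = 0 := by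
  obtain ⟨a₀, ha₀, hs⟩ := exists_ssum_eq (L := X.L₀) (ε := X.ε) (f := fun g => (X.ε g : ℤ)) fun g u hu => by
    rw [map_mul, Units.val_mul, mul_comm, smul_eq_mul]
  have htens : ∀ (A : Type) [AddCommGroup A] (x : A), FinC X.L₀ (zmultiplesHom A x ∘ a₀) ∧
      tens (Zc X.z a₀) x = Zc X.z (zmultiplesHom A x ∘ a₀) ∧
      ssum X.L₀ X.ε (zmultiplesHom A x ∘ a₀) = fun g => (X.ε g : ℤ) • x := fun A _ x =>
    ⟨ha₀.of_supp fun g hg h0 => hg (by simp [h0]), (Zc_map X.on X.cyc.1 ha₀ (zmultiplesHom A x)).symm,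
      by rw [ssum_map ha₀, hs]; rfl⟩
  refine ⟨Zc X.z a₀, X.isZ ha₀, ?_, fun A _ e he hte => ?_, fun A _ x hx => ?_⟩
  · refine (X.right ℤ a₀ t ha₀).trans ((pdb_congr X hX (X.finC_right ha₀ t) ha₀).2 (funext fun g => ?_))
    rw [pdb_T X hX ha₀, hs]
    simp only [map_mul, map_inv, Int.units_inv_eq_self, Units.val_mul]
    rw [mul_comm, ← smul_eq_mul, pdb_sq]
  · obtain ⟨a, ha, h1⟩ := X.surj A e he
    have h2 := h1.pu_sub he.1 (X.isZ ha).1 (mor_right' h.ker t)
    have h3 := (pdb_congr X hX (X.finC_right ha t) ha).1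
      (((X.right A a t ha).symm.trans h2.symm).trans (hte.trans h1))
    have h4 : ∀ g, (X.ε (g * t⁻¹) : ℤ) • ssum X.L₀ X.ε a (g * t⁻¹) = (X.ε g : ℤ) • ssum X.L₀ X.ε a g := fun g => by
      rw [← congrFun h3 g, pdb_T X hX ha, map_mul, map_inv, Int.units_inv_eq_self, Units.val_mul, mul_smul]
    have h5 : ∀ n : ℤ, (X.ε (t ^ n) : ℤ) • ssum X.L₀ X.ε a (t ^ n) = ssum X.L₀ X.ε a 1 := fun n => by
      induction n using Int.induction_on with
      | zero => simp
      | succ n ih => rw [← h4, ← ih, zpow_add_one, mul_inv_cancel_right]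
      | pred n ih => rw [← ih, ← h4 (t ^ (-(n : ℤ))), zpow_sub_one]
    obtain ⟨b1, b2, b3⟩ := htens A (ssum X.L₀ X.ε a 1)
    refine ⟨ssum X.L₀ X.ε a 1, h1.trans ?_⟩
    rw [b2, pdb_congr X hX ha b1, b3]
    funext g
    rw [pdb_norm ht X hX a g, h5]
  · obtain ⟨b1, b2, b3⟩ := htens A x
    rw [b2, pdb_zero X hX b1, b3] at hx
    simpa using congrFun hx 1

/-- `exists_loc` with `L₀ = K`, `WS ⊤ K h t`, the `Wd` lemmas (`tens z x = (zmultiplesHom A x) ∘ z`), `isB_right`, `IsZ.gc_zero` in degree zero -/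
theorem pd_step {h : G →* Multiplicative ℤ} {t : G} (ht : hv h t = 1) (hf : h.ker.FG) {r : ℕ} (hr : PD h.ker r) :
    PD G (r + 1) := by
  obtain ⟨X, hX⟩ := exists_loc (K := h.ker) le_rfl hf
    (fun L hL => by rw [Subgroup.relIndex_eq_one.2 hL.2.1]; exact one_ne_zero) hr
  have w : WS ⊤ h.ker h t := ⟨fun g => by simp [hv, MonoidHom.mem_ker], Subgroup.mem_top _, ht⟩
  obtain ⟨e₀, h1, h2, h3, h4⟩ := X.ker ht hX
  obtain ⟨z, hz⟩ := Wd.surj w h1 h2
  have key : ∀ (A : Type) [AddCommGroup A] (q : ℕ) (c : List G → A), (gc h.ker).IsZ q c →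
      (gc (⊤ : Subgroup G)).IsB q c := by
    intro A _ q c hc
    by_cases hq : q = r
    · subst hq
      obtain ⟨e, he, hb⟩ := X.coker ht hX hc
      exact (hb.gc_mono le_top).of_sub (isB_right (Subgroup.mem_top t) (he.gc_mono le_top))
    · exact (X.van A q c hq hc).gc_mono le_top
  have key' : ∀ (A : Type) [AddCommGroup A] (q : ℕ) (c e : List G → A), Wd ⊤ h t q c e → (gc h.ker).IsB q e →
      (gc (⊤ : Subgroup G)).IsB (q + 1) c := by
    intro A _ q c e hd he
    obtain ⟨c', hc', hb⟩ := hd.exact w he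
    exact hb.of_sub (key A _ c' hc')
  refine ⟨z, (hz.isZ w).1, fun A _ q c hq hc => ?_, fun A _ c hc => ?_, fun A _ a ha => ?_⟩
  · cases q with
    | zero => exact key A 0 c (hc.gc_zero _)
    | succ q =>
      obtain ⟨e, hd⟩ := Wd.ex (h := h) (t := t) hc
      exact key' A q c e hd (X.van A q e (by omega) (hd.isZ w).2.1)
  · obtain ⟨e, hd⟩ := Wd.ex (h := h) (t := t) hc
    obtain ⟨x, hx⟩ := h3 A e (hd.isZ w).2.1 (hd.isZ w).2.2
    exact ⟨x, key' A r _ _ (hd.sub w (hz.map w (zmultiplesHom A x))) hx⟩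
  · exact h4 A a ((hz.map w (zmultiplesHom A a)).isB w ha)

theorem exists_height {K : Subgroup G} {t : G} (ht : Nz t K) (hs : K ⊔ Subgroup.zpowers t = ⊤)
    (hz : ∀ n : ℤ, t ^ n ∈ K → n = 0) : ∃ h : G →* Multiplicative ℤ, h.ker = K ∧ hv h t = 1 := by
  have hN : K.Normal := by
    refine ⟨fun n hn g => ?_⟩
    have hg : g ∈ Subgroup.normalizer (K : Set G) := by
      have : K ⊔ Subgroup.zpowers t ≤ Subgroup.normalizer (K : Set G) :=
        sup_le Subgroup.le_normalizer (Subgroup.zpowers_le_of_mem (Subgroup.mem_normalizer_iff.2 ht))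
      exact this (hs ▸ Subgroup.mem_top g)
    exact (Subgroup.mem_normalizer_iff.1 hg n).1 hn
  let φ : Multiplicative ℤ →* G ⧸ K := zpowersHom (G ⧸ K) (t : G ⧸ K)
  have hφ : Function.Bijective φ := by
    constructor
    · refine (injective_iff_map_eq_one φ).2 fun n hn => ?_
      have h1 : ((t ^ Multiplicative.toAdd n : G) : G ⧸ K) = 1 := by
        rw [QuotientGroup.mk_zpow]; exact hn
      exact toAdd_eq_zero.1 (hz _ ((QuotientGroup.eq_one_iff _).1 h1))
    · intro x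
      obtain ⟨x, rfl⟩ := QuotientGroup.mk_surjective x
      obtain ⟨y, hy, j, rfl⟩ := ht.mem_sup.1 (hs ▸ Subgroup.mem_top x)
      refine ⟨Multiplicative.ofAdd j, ?_⟩
      rw [QuotientGroup.mk_mul, (QuotientGroup.eq_one_iff _).2 hy, one_mul, QuotientGroup.mk_zpow]
      rfl
  let e := MulEquiv.ofBijective φ hφ
  refine ⟨e.symm.toMonoidHom.comp (QuotientGroup.mk' K), ?_, ?_⟩
  · ext x
    simp [MonoidHom.mem_ker]
  · have : e (Multiplicative.ofAdd 1) = (t : G ⧸ K) := by simp [e, φ]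
    show Multiplicative.toAdd (e.symm (t : G ⧸ K)) = 1
    rw [← this, e.symm_apply_apply]
    rfl

theorem PZ.pd {K : Subgroup G} (h : PZ K) : ∃ d, PD K d := by
  induction h with
  | bot => exact ⟨0, pd_trivial⟩
  | step H g hH hg hz ih =>
    obtain ⟨d, hd⟩ := ih
    have hle : H ≤ H ⊔ Subgroup.zpowers g := le_sup_left
    have hgm : g ∈ H ⊔ Subgroup.zpowers g := Subgroup.mem_sup_right (Subgroup.mem_zpowers g)
    have h1 : Nz (⟨g, hgm⟩ : ↥(H ⊔ Subgroup.zpowers g)) (H.subgroupOf (H ⊔ Subgroup.zpowers g)) := fun x => hg x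
    obtain ⟨h, hk, ht⟩ := exists_height h1 (by
        rw [eq_top_iff]
        rintro ⟨x, hx⟩ -
        obtain ⟨y, hy, j, rfl⟩ := hg.mem_sup.1 hx
        exact h1.mem_sup.2 ⟨⟨y, hle hy⟩, hy, j, Subtype.ext (by simp)⟩)
      fun n hn => hz n (by simpa [Subgroup.mem_subgroupOf] using hn)
    refine ⟨d + 1, pd_step ht ?_ ?_⟩
    · rw [hk]
      exact (hH.pc.comap _ (Subgroup.subtype_injective _)).fg
    · rw [hk]
      refine hd.up (Subgroup.subgroupOfEquivOfLe hle).symm.toMonoidHom (MulEquiv.injective _) ?_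
      rw [MonoidHom.range_eq_top.2 (MulEquiv.surjective _)]
      infer_instance

theorem pd_of_vpc (h : IsVirtuallyPolycyclic G) : ∃ d, PD G d := by
  obtain ⟨P, hP, h⟩ := h
  obtain ⟨L, hle, hi, hL⟩ := exists_pz ((pc_iff P).1 h)
  obtain ⟨d, hd⟩ := hL.pd
  refine ⟨d, hd.up L.subtype L.subtype_injective ?_⟩
  rw [Subgroup.range_subtype]
  refine ⟨?_⟩
  rw [← Subgroup.relIndex_mul_index hle]
  exact mul_ne_zero hi hP.index_ne_zero

end Crest.Agent.R182
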