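import Crest.Agent.R182.E.Op

/-! R182/E: simplicial identities. -/

set_option autoImplicit false
set_option linter.unusedVariables false
set_option linter.unusedSectionVars false
open Set Filter Topology MeasureTheory Crest.GroupTheory
open scoped Pointwise commutatorElement

noncomputable section
namespace Crest.Agent.R182

variable {Y Y' Y'' : Type}

theorem simpb_md {α β : Type} {f : α → β} {v : α →₀ ℤ} {b : β} (h : v.mapDomain f b ≠ 0) :
    ∃ a, v a ≠ 0 ∧ f a = b := by
  classical
  obtain ⟨a, h1, h2⟩ := Finset.mem_image.1 (Finsupp.mapDomain_support (Finsupp.mem_support_iff.2 h))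
  exact ⟨a, Finsupp.mem_support_iff.1 h1, h2⟩

theorem simpb_sub {α : Type} {a b : α} {v : α →₀ ℤ} (h : (Finsupp.single a (1 : ℤ) - v) b ≠ 0) :
    b = a ∨ v b ≠ 0 := by
  by_contra hc
  push Not at hc
  exact h (by rw [Finsupp.sub_apply, Finsupp.single_eq_of_ne hc.1, hc.2, sub_zero])

theorem simpb_bd {l l' : List Y} (h : bd l l' ≠ 0) : l'.length + 1 = l.length ∧ ∀ x ∈ l', x ∈ l := by
  induction l generalizing l' with
  | nil => exact absurd rfl h
  | cons x l ih =>
    rcases simpb_sub h with rfl | h
    · exact ⟨rfl, fun y hy => List.mem_cons_of_mem _ hy⟩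
    · obtain ⟨l'', h1, rfl⟩ := simpb_md h
      obtain ⟨h2, h3⟩ := ih h1
      refine ⟨by simp only [List.length_cons, h2], fun y hy => ?_⟩
      rcases List.mem_cons.1 hy with rfl | hy
      · exact List.mem_cons_self
      · exact List.mem_cons_of_mem _ (h3 y hy)

theorem bd'_ne_zero {l l' : List Y} (h : bd' l l' ≠ 0) : l'.length + 1 = l.length ∧ l' ≠ [] ∧ ∀ x ∈ l', x ∈ l := by
  unfold bd' at h
  split_ifs at h with hl
  · exact absurd rfl h
  obtain ⟨h1, h2⟩ := simpb_bd h
  refine ⟨h1, ?_, h2⟩
  rintro rfl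
  simp only [List.length_nil] at h1
  omega

theorem mp_ne_zero {f : Y → Y'} {l : List Y} {l' : List Y'} : mp f l l' ≠ 0 ↔ l' = l.map f := by
  simp only [mp, Finsupp.single_apply_ne_zero, ne_eq, one_ne_zero, not_false_eq_true, and_true]

theorem pr_ne_zero {f g : Y → Y'} {l : List Y} {l' : List Y'} (h : pr f g l l' ≠ 0) :
    l'.length = l.length + 1 ∧ (∀ y ∈ l', ∃ x ∈ l, y = f x ∨ y = g x) ∧ ∃ x ∈ l, f x ∈ l' := by
  induction l generalizing l' with
  | nil => exact absurd rfl h
  | cons x l ih =>
    rcases simpb_sub h with rfl | h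
    · refine ⟨by simp, fun y hy => ?_, x, List.mem_cons_self, List.mem_cons_self⟩
      rcases List.mem_cons.1 hy with rfl | hy
      · exact ⟨x, List.mem_cons_self, Or.inl rfl⟩
      · obtain ⟨u, hu, rfl⟩ := List.mem_map.1 hy
        exact ⟨u, hu, Or.inr rfl⟩
    · obtain ⟨l'', h1, rfl⟩ := simpb_md h
      obtain ⟨h2, h3, -⟩ := ih h1
      refine ⟨by simp only [List.length_cons, h2], fun y hy => ?_, x, List.mem_cons_self, List.mem_cons_self⟩
      rcases List.mem_cons.1 hy with rfl | hy
      · exact ⟨x, List.mem_cons_self, Or.inl rfl⟩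
      · obtain ⟨u, hu, hu'⟩ := h3 y hy
        exact ⟨u, List.mem_cons_of_mem _ hu, hu'⟩

theorem simpa_single {I I' : Type} (k : I → (I' →₀ ℤ)) (i : I) : lext k (Finsupp.single i 1) = k i := by
  simp [lext]

theorem simpa_congr {I I' : Type} {k k' : I → (I' →₀ ℤ)} {v : I →₀ ℤ} (h : ∀ i, v i ≠ 0 → k i = k' i) :
    lext k v = lext k' v := by
  simp only [lext, Finsupp.linearCombination_apply]
  exact Finsupp.sum_congr fun i hi => by rw [h i (Finsupp.mem_support_iff.1 hi)]

theorem simpa_map {I I' : Type} (f : I → I') (v : I →₀ ℤ) :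
    lext (fun i => Finsupp.single (f i) 1) v = v.mapDomain f := by
  induction v using Finsupp.induction_linear with
  | zero => simp
  | add v w hv hw => rw [map_add, hv, hw, Finsupp.mapDomain_add]
  | single i c => simp [lext]

theorem simpa_cons (x : Y) (v : List Y →₀ ℤ) :
    lext bd (v.mapDomain (x :: ·)) = v - (lext bd v).mapDomain (x :: ·) := by
  induction v using Finsupp.induction_linear with
  | zero => simp
  | add v w hv hw => rw [Finsupp.mapDomain_add, map_add, hv, hw, map_add, Finsupp.mapDomain_add]; abel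
  | single i c => simp [lext, bd, smul_sub, Finsupp.mapDomain_smul]

theorem simpa_bd_bd (l : List Y) : lext bd (bd l) = 0 := by
  induction l with
  | nil => simp [bd]
  | cons x l ih => rw [bd, map_sub, simpa_single, simpa_cons, ih]; simp

theorem simpa_bd_map (f : Y → Y') (l : List Y) : bd (l.map f) = (bd l).mapDomain (List.map f) := by
  induction l with
  | nil => simp [bd]
  | cons x l ih =>
    rw [List.map_cons, bd, bd, ih, Finsupp.mapDomain_sub, Finsupp.mapDomain_single, ← Finsupp.mapDomain_comp,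
      ← Finsupp.mapDomain_comp]
    rfl

theorem simpa_pr_cons (f g : Y → Y') (x : Y) (v : List Y →₀ ℤ) :
    lext (pr f g) (v.mapDomain (x :: ·)) =
      ((v.mapDomain (List.map g)).mapDomain (g x :: ·)).mapDomain (f x :: ·) - (lext (pr f g) v).mapDomain (f x :: ·) := by
  induction v using Finsupp.induction_linear with
  | zero => simp
  | add v w hv hw => simp only [Finsupp.mapDomain_add, map_add, hv, hw]; abel
  | single i c => simp [lext, pr, smul_sub, Finsupp.mapDomain_smul]

theorem simpa_bd_pr (f g : Y → Y') (l : List Y) :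
    lext bd (pr f g l) + lext (pr f g) (bd l) = mp g l - mp f l := by
  induction l with
  | nil => simp [bd, pr, mp]
  | cons x l ih =>
    have := congrArg (Finsupp.mapDomain (f x :: ·)) ih
    rw [Finsupp.mapDomain_add, ← eq_sub_iff_add_eq] at this
    rw [pr, bd, map_sub, map_sub, simpa_single, simpa_single, simpa_cons, simpa_pr_cons, this, List.map_cons, bd, bd,
      simpa_bd_map]
    simp only [mp, Finsupp.mapDomain_sub, Finsupp.mapDomain_single, List.map_cons]
    abel

/-- first for `bd`: `lext bd (v.mapDomain (x :: ·)) = v - (lext bd v).mapDomain (x :: ·)` (`Finsupp.induction_linear`) -/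
theorem bd'_bd' (l : List Y) : lext bd' (bd' l) = 0 := by
  by_cases h : l.length ≤ 2
  · rw [simpa_congr (k := bd') (k' := fun _ => 0) (v := bd' l) fun l' hl' => if_pos (by have := (bd'_ne_zero hl').1; omega)]
    simp [lext, Finsupp.linearCombination_apply]
  · rw [simpa_congr (k := bd') (k' := bd) (v := bd' l) fun l' hl' => if_neg (by have := (bd'_ne_zero hl').1; omega),
      bd', if_neg (by omega), simpa_bd_bd]

theorem bd'_mp (f : Y → Y') (l : List Y) : lext bd' (mp f l) = lext (mp f) (bd' l) := by
  rw [mp, simpa_single, bd', bd', List.length_map]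
  split_ifs
  · simp
  · exact (simpa_bd_map f l).trans (simpa_map _ _).symm

theorem mp_mp (f : Y → Y') (g : Y' → Y'') (l : List Y) : lext (mp g) (mp f l) = mp (g ∘ f) l := by
  rw [mp, simpa_single, mp, mp, List.map_map]

theorem mp_id (l : List Y) : mp id l = Finsupp.single l 1 := by
  rw [mp, List.map_id]

/-- first for `bd` and all lists, by induction; `pr f g [] = 0` -/
theorem bd'_pr (f g : Y → Y') {l : List Y} (hl : l ≠ []) :
    lext bd' (pr f g l) + lext (pr f g) (bd' l) = mp g l - mp f l := by
  have h0 := List.length_pos_iff.2 hl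
  rw [simpa_congr (k := bd') (k' := bd) (v := pr f g l) fun l' hl' => if_neg (by have := (pr_ne_zero hl').1; omega),
    ← simpa_bd_pr, bd']
  split_ifs with h
  · obtain ⟨x, rfl⟩ := List.length_eq_one_iff.1 (le_antisymm h h0)
    simp [bd, simpa_single, pr]
  · rfl

theorem bd'_cone (x : Y) {l : List Y} (hl : 2 ≤ l.length) :
    lext bd' (Finsupp.single (x :: l) 1) + lext (fun l => Finsupp.single (x :: l) 1) (bd' l) = Finsupp.single l 1 := by
  rw [simpa_single, simpa_map, bd', bd', if_neg (by rw [List.length_cons]; omega), if_neg (by omega), bd,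
    sub_add_cancel]

theorem simpb_bd_map (f : Y → Y') (l : List Y) : bd (l.map f) = (bd l).mapDomain (List.map f) := by
  induction l with
  | nil => simp [bd]
  | cons x l ih =>
    rw [List.map_cons, bd, bd, ih, Finsupp.mapDomain_sub, Finsupp.mapDomain_single, ← Finsupp.mapDomain_comp,
      ← Finsupp.mapDomain_comp]
    rfl

theorem bd'_map {f : Y → Y'} (hf : Function.Injective f) (l l' : List Y) : bd' (l.map f) (l'.map f) = bd' l l' := by
  unfold bd'
  rw [List.length_map]
  split_ifs
  · rfl
  · rw [simpb_bd_map, Finsupp.mapDomain_apply (List.map_injective_iff.2 hf)]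

theorem Simp.mono {q : ℕ} {E E' : Set (Y × Y)} (h : E ⊆ E') : Simp q E ⊆ Simp q E' := by
  exact fun l hl => ⟨hl.1, fun x hx y hy => h (hl.2 x hx y hy)⟩

/-- `List.finite_length_eq` for the finite type `{y | (x, y) ∈ E}` -/
theorem finite_Simp (X : Crs Y) {E : Set (Y × Y)} (hE : X.ctrl E) (q : ℕ) (x : Y) : {l | l ∈ Simp q E ∧ x ∈ l}.Finite := by
  have := (X.fin hE x).to_subtype
  refine ((List.finite_length_eq {y | (x, y) ∈ E} (q + 1)).image (List.map Subtype.val)).subset ?_
  rintro l ⟨⟨h1, h2⟩, hx⟩
  exact ⟨l.attachWith _ fun y hy => h2 x hx y hy, List.length_attachWith.trans h1,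
    List.attachWith_map_subtype_val _⟩

/-- for an injective `f` whose range is a union of "components" of the support of `c` -/
theorem dd_comap {A : Type} [AddCommGroup A] {f : Y → Y'} (hf : Function.Injective f) {c : List Y' → A}
    (hc : ∀ l, c l ≠ 0 → (∃ y ∈ l, y ∈ range f) → ∀ y ∈ l, y ∈ range f) (l : List Y) :
    dd c (l.map f) = dd (fun l => c (l.map f)) l := by
  unfold dd op
  simp only [← bd'_map hf]
  rw [← finsum_mem_range (f := fun i => bd' i (l.map f) • c i) (List.map_injective_iff.2 hf), ← finsum_mem_univ]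
  refine finsum_mem_inter_support_eq _ _ _ ?_
  rw [univ_inter, eq_comm, inter_eq_right]
  intro i hi
  have h1 : bd' i (l.map f) ≠ 0 := fun e => hi (by simp only [e, zero_smul])
  have h2 : c i ≠ 0 := fun e => hi (by simp only [e, smul_zero])
  obtain ⟨-, h3, h4⟩ := bd'_ne_zero h1
  obtain ⟨y, hy⟩ := List.exists_mem_of_ne_nil _ h3
  have h5 := hc i h2 ⟨y, h4 y hy, by
    obtain ⟨u, -, rfl⟩ := List.mem_map.1 hy
    exact ⟨u, rfl⟩⟩
  clear hi h1 h2 h4
  induction i with
  | nil => exact ⟨[], rfl⟩
  | cons z i ih =>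
    obtain ⟨u, rfl⟩ := h5 z List.mem_cons_self
    obtain ⟨i', rfl⟩ := ih fun y hy => h5 y (List.mem_cons_of_mem _ hy)
    exact ⟨u :: i', rfl⟩

end Crest.Agent.R182
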