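import Crest.Agent.R182.E.Wang
import Crest.Agent.R182.E.Loc

/-! R182/E: iterating the Wang sequence. -/

set_option autoImplicit false
set_option linter.unusedVariables false
set_option linter.unusedSectionVars false
open Set Filter Topology MeasureTheory Crest.GroupTheory
open scoped Pointwise commutatorElement

noncomputable section
namespace Crest.Agent.R182

variable {G : Type} [Group G] (A : Type) [AddCommGroup A] {K Γ Γ' : Subgroup G} {r n : ℕ}

theorem Tr.base [K.Normal] (X : Loc K r) : Tr A K K r r fun c e => c = e ∧ (gc K).IsZ r c := by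
  refine ⟨fun q c hq hc => X.van A q c hq.ne' hc, fun c hc => ⟨c, rfl, hc⟩, ?_, ?_, ?_, ?_, ?_, ?_,
    fun e he _ => ⟨e, e, ⟨rfl, he⟩, by rw [sub_self]; exact Crs.IsB.zero⟩⟩
  · rintro c _ ⟨rfl, hc⟩
    exact ⟨hc, hc⟩
  · rintro c _ ⟨rfl, hc⟩
    exact Iff.rfl
  · rintro c _ c' _ ⟨rfl, hc⟩ ⟨rfl, hc'⟩
    exact ⟨rfl, hc.sub hc'⟩
  · rintro m c _ ⟨rfl, hc⟩
    exact ⟨rfl, hc.smul m⟩
  · rintro g c _ ⟨rfl, hc⟩
    exact ⟨rfl, hc.pu (mor_left K g)⟩
  · rintro s c _ ⟨rfl, hc⟩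
    exact ⟨_, ⟨rfl, hc.pu (mor_right' K s)⟩, by rw [sub_self]; exact Crs.IsB.zero⟩

variable {A}

theorem Tr.inv {W : (List G → A) → (List G → A) → Prop} (h : Tr A Γ K n r W) {c e : List G → A} (hw : W c e) {s : G}
    (hs : s ∈ Γ) : (gc K).IsB r (pu (· * s) e - e) := by
  obtain ⟨e', h1, h2⟩ := h.right s c e hw
  exact h2.symm.trans ((h.isB _ _ (h.sub _ _ _ _ h1 hw)).1 (isB_right hs (h.isZ _ _ hw).1))

theorem Tr.congr {W : (List G → A) → (List G → A) → Prop} (h : Tr A Γ K n r W) {c e c' e' : List G → A} (hw : W c e)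
    (hw' : W c' e') : (gc Γ).IsB n (c - c') ↔ (gc K).IsB r (e - e') := h.isB _ _ (h.sub _ _ _ _ hw hw')

/-- `right`: replace the witness; the relation is `fun c e => ∃ x, Wd Γ h t n c x ∧ W x e` -/
theorem Tr.step [Γ.Normal] [Γ'.Normal] [K.Normal] {h : G →* Multiplicative ℤ} {t : G} (w : WS Γ Γ' h t)
    {W : (List G → A) → (List G → A) → Prop} (hW : Tr A Γ' K n r W) :
    Tr A Γ K (n + 1) r fun c e => ∃ x, Wd Γ h t n c x ∧ W x e := by
  have key : ∀ q, n ≤ q → ∀ c x : List G → A, Wd Γ h t q c x → (gc Γ').IsB q x → (gc Γ).IsB (q + 1) c :=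
    fun q hq c x hd hx => by
      obtain ⟨c', h1, h2⟩ := hd.exact w hx
      exact h2.of_sub ((hW.van _ _ (Nat.lt_succ_of_le hq) h1).gc_mono w.le)
  refine ⟨fun q c hq hc => ?_, fun c hc => ?_, ?_, ?_, ?_, ?_, ?_, ?_, fun e he hs => ?_⟩
  · obtain ⟨q, rfl⟩ : ∃ q', q = q' + 1 := ⟨q - 1, by omega⟩
    obtain ⟨x, hd⟩ := Wd.ex (h := h) (t := t) hc
    exact key q (by omega) c x hd (hW.van _ _ (by omega) (hd.isZ w).2.1)
  · obtain ⟨x, hd⟩ := Wd.ex (h := h) (t := t) hc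
    obtain ⟨e, he⟩ := hW.ex x (hd.isZ w).2.1
    exact ⟨e, x, hd, he⟩
  · rintro c e ⟨x, hd, hx⟩
    exact ⟨(hd.isZ w).1, (hW.isZ _ _ hx).2⟩
  · rintro c e ⟨x, hd, hx⟩
    exact ⟨fun hc => (hW.isB _ _ hx).1 (hd.isB w hc), fun he => key n le_rfl c x hd ((hW.isB _ _ hx).2 he)⟩
  · rintro c e c' e' ⟨x, hd, hx⟩ ⟨x', hd', hx'⟩
    exact ⟨_, hd.sub w hd', hW.sub _ _ _ _ hx hx'⟩
  · rintro m c e ⟨x, hd, hx⟩
    exact ⟨_, hd.smul w m, hW.smul m _ _ hx⟩
  · rintro g c e ⟨x, hd, hx⟩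
    exact ⟨_, hd.left w g, hW.left g _ _ hx⟩
  · rintro s c e ⟨x, hd, hx⟩
    obtain ⟨x', hd', h1⟩ := hd.right w s
    obtain ⟨e', he'⟩ := hW.ex x' (hd'.isZ w).2.1
    obtain ⟨e'', he'', h2⟩ := hW.right s x e hx
    exact ⟨e', ⟨x', hd', he'⟩, ((hW.congr he' he'').1 h1).trans h2⟩
  · obtain ⟨x, e', hx, h1⟩ := hW.surj e he fun s hs' => hs s (w.le hs')
    obtain ⟨e'', he'', h2⟩ := hW.right t x e' hx
    have h3 := h1.pu_sub (hW.isZ _ _ hx).2.1 he.1 (mor_right' K t)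
    obtain ⟨c, hd⟩ := Wd.surj w (hW.isZ _ _ hx).1
      ((hW.congr he'' hx).2 (((h2.trans h3).trans (hs t w.t_mem)).trans h1.symm))
    exact ⟨c, e', ⟨x, hd, hx⟩, h1⟩

/-- induction on `i ≤ k` for `Γ i = {g | ∀ j, i ≤ j → toAdd (τ g) j = 0}` -/
theorem exists_tr {k : ℕ} (τ : G →* Multiplicative (Fin k → ℤ)) (hτ : Function.Surjective τ) (X : Loc τ.ker r) :
    ∃ W, Tr A ⊤ τ.ker (r + k) r W := by
  let S : ℕ → Subgroup (Multiplicative (Fin k → ℤ)) := fun i =>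
    { carrier := {a | ∀ j : Fin k, i ≤ j.val → Multiplicative.toAdd a j = 0}
      one_mem' := fun _ _ => rfl
      mul_mem' := fun {a b} ha hb j hj => by rw [toAdd_mul, Pi.add_apply, ha j hj, hb j hj, add_zero]
      inv_mem' := fun {a} ha j hj => by rw [toAdd_inv, Pi.neg_apply, ha j hj, neg_zero] }
  have key : ∀ i, i ≤ k → ∃ W : (List G → A) → (List G → A) → Prop, Tr A ((S i).comap τ) τ.ker (r + i) r W := by
    intro i
    induction i with
    | zero =>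
      intro _
      have : (S 0).comap τ = τ.ker := Subgroup.ext fun g =>
        ⟨fun hg => funext fun j => hg j (Nat.zero_le _), fun hg j _ => by rw [MonoidHom.mem_ker.1 hg]; rfl⟩
      rw [this]
      exact ⟨_, Tr.base A X⟩
    | succ i ih =>
      intro hi
      obtain ⟨W, hW⟩ := ih (by omega)
      obtain ⟨t, ht⟩ := hτ (Multiplicative.ofAdd (Pi.single ⟨i, hi⟩ 1))
      have w : WS ((S (i + 1)).comap τ) ((S i).comap τ)
          ((AddMonoidHom.toMultiplicative (Pi.evalAddMonoidHom (fun _ : Fin k => ℤ) ⟨i, hi⟩)).comp τ) t := by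
        refine ⟨fun g => ⟨fun hg => ⟨fun j hj => hg j (by omega), hg ⟨i, hi⟩ le_rfl⟩, fun hg j hj => ?_⟩,
          fun j hj => ?_, ?_⟩
        · rcases hj.eq_or_lt with e | e
          · obtain rfl : j = ⟨i, hi⟩ := Fin.ext e.symm
            exact hg.2
          · exact hg.1 j e
        · rw [ht, toAdd_ofAdd]
          exact Pi.single_eq_of_ne (fun e => by rw [e] at hj; exact absurd hj (Nat.not_succ_le_self i)) _
        · change Multiplicative.toAdd (τ t) ⟨i, hi⟩ = 1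
          rw [ht, toAdd_ofAdd, Pi.single_eq_same]
      exact ⟨_, hW.step w⟩
  have := key k le_rfl
  rwa [show (S k).comap τ = ⊤ from eq_top_iff.2 fun g _ j hj => absurd j.2 (not_lt.2 hj)] at this

theorem dim_eq [K.Normal] (X : Loc K r) {m : ℕ} {W : (List G → ℚ) → (List G → ℚ) → Prop} (hW : Tr ℚ ⊤ K m r W)
    (h : PD G n) : m = n := by
  obtain ⟨z, hz⟩ := h
  obtain ⟨e, he, h0, hinv⟩ := X.exists_haar
  obtain ⟨c, e', hw, hb⟩ := hW.surj e he fun s _ => hinv s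
  by_contra hne
  exact h0 (hb.symm.of_sub ((hW.isB _ _ hw).1 (hz.van ℚ m c hne (hW.isZ _ _ hw).1)))

theorem towerb_tens {I : Type} (z : I → ℤ) (a : ℤ) : tens z a = a • z := by
  funext i
  simp [tens, mul_comm]

/-- `W z e`; `e` is not a boundary (`inj`), `g · e ~ η • e` (`surj`, `left`, `smul`).  `exists_div` gives `e ~ m • e'`; `e'` is invariant under right
multiplications (`Tr.inv`, `of_smul`), so `e' ~ j • e` (`Tr.surj`, `PDz.surj`) and `(1 - m j) • z` is a boundary. -/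
theorem fg_of_tr [Group.FG G] [K.Normal] (X : Loc K r) {W : (List G → ℤ) → (List G → ℤ) → Prop} (hW : Tr ℤ ⊤ K n r W)
    (h : PD G n) : K.FG := by
  by_contra hK
  obtain ⟨z, hz⟩ := h
  obtain ⟨e, hw⟩ := hW.ex z hz.cyc
  have he := (hW.isZ _ _ hw).2
  have key : ∀ a : ℤ, (gc K).IsB r (a • e) → a = 0 := fun a ha =>
    hz.inj ℤ a (by rw [towerb_tens]; exact (hW.isB _ _ (hW.smul a _ _ hw)).2 ha)
  have cls : ∀ c x, W c x → ∃ a : ℤ, (gc K).IsB r (x - a • e) := fun c x hx => by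
    obtain ⟨a, ha⟩ := hz.surj ℤ c (hW.isZ _ _ hx).1
    rw [towerb_tens] at ha
    exact ⟨a, (hW.congr hx (hW.smul a _ _ hw)).1 ha⟩
  have h0 : ¬ (gc K).IsB r e := fun hb => one_ne_zero (key 1 (by rwa [one_smul]))
  obtain ⟨m, e', hm, he', hb⟩ := X.exists_div hK he h0 fun g => cls _ _ (hW.left g _ _ hw)
  have hinv : ∀ s ∈ (⊤ : Subgroup G), (gc K).IsB r (pu (· * s) e' - e') := fun s hs => by
    have hs' := mor_right' K s
    refine X.of_smul ((he'.pu hs').sub he') (m := m) (by omega) ?_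
    rw [smul_sub, ← he'.1.pu_smul hs']
    exact ((hb.pu_sub he.1 (he'.1.smul m) hs').symm.trans (hW.inv hw hs)).trans hb
  obtain ⟨c, x, hx, hxe⟩ := hW.surj e' he' hinv
  obtain ⟨j, hj⟩ := cls c x hx
  have h1 : (gc K).IsB r ((1 - m * j) • e) := by
    have h2 := hb.add ((hxe.symm.trans hj).smul m)
    have h3 : e - m • e' + m • (e' - j • e) = (1 - m * j) • e := by
      rw [smul_sub, sub_smul, one_smul, mul_smul]; abel
    rwa [h3] at h2
  have h4 : m * j = 1 := by have := key _ h1; omega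
  have := Int.eq_one_or_neg_one_of_mul_eq_one h4
  omega

end Crest.Agent.R182
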