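import Crest.Agent.R182.E.Grp

/-! R182/E: the Wang sequence. -/

set_option autoImplicit false
set_option linter.unusedVariables false
set_option linter.unusedSectionVars false
open Set Filter Topology MeasureTheory Crest.GroupTheory
open scoped Pointwise commutatorElement

noncomputable section
namespace Crest.Agent.R182

variable {G A A' : Type} [Group G] [AddCommGroup A] [AddCommGroup A'] {Γ Γ' : Subgroup G} {h : G →* Multiplicative ℤ} {t : G}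
  {q : ℕ}

theorem hv_mul (a b : G) : hv h (a * b) = hv h a + hv h b := by simp [hv]
theorem hv_one : hv h (1 : G) = 0 := by simp [hv]
theorem hv_inv (a : G) : hv h a⁻¹ = -hv h a := by simp [hv]
theorem hv_zpow (a : G) (n : ℤ) : hv h (a ^ n) = n * hv h a := by simp [hv]

theorem WS.le (w : WS Γ Γ' h t) : Γ' ≤ Γ := fun g hg => ((w.mem g).1 hg).1

theorem wanga_fin {F : Set G} (hF : F.Finite) (R : ℤ) (φ : ℤ → ℤ → G → G) :
    {g | ∃ a b f, |a| ≤ R ∧ |b| ≤ R ∧ f ∈ F ∧ g = φ a b f}.Finite := by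
  refine ((((finite_Icc (-R) R).prod (finite_Icc (-R) R)).prod hF).image fun p => φ p.1.1 p.1.2 p.2).subset ?_
  rintro _ ⟨a, b, f, ha, hb, hf, rfl⟩
  exact ⟨((a, b), f), ⟨⟨abs_le.1 ha, abs_le.1 hb⟩, hf⟩, rfl⟩

theorem wanga_inj {Y Y' : Type} {f : Y → Y'} (hf : Function.Injective f) (E : Set (Y × Y)) (y : Y') :
    {x | (x, x) ∈ E ∧ f x = y}.Finite :=
  ((finite_singleton y).preimage hf.injOn).subset fun _ hx => hx.2

theorem WS.hv_lev (w : WS Γ Γ' h t) (p : ℤ × G) : hv h (lev h t p) = p.1 := by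
  rw [lev, hv_mul, hv_zpow, w.ht]
  ring

theorem mor_snd : (tc Γ h).Mor (gc Γ) Prod.snd := by
  rintro E ⟨F, R, h1, h2, h3⟩
  refine ⟨⟨F, h1, h2, ?_⟩, fun y => ((finite_Icc (hv h y - R) (hv h y + R)).image fun m => (m, y)).subset ?_⟩
  · rintro _ ⟨p, hp, rfl⟩
    exact (h3 p hp).2.1
  · rintro ⟨m, x⟩ ⟨hx, rfl⟩
    have := abs_le.1 (h3 _ hx).2.2.1
    exact ⟨m, ⟨by simp only at this ⊢; omega, by simp only at this ⊢; omega⟩, rfl⟩

theorem mor_shf : (tc Γ h).Mor (tc Γ h) shf := by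
  rintro E ⟨F, R, h1, h2, h3⟩
  refine ⟨⟨F, R + 1, h1, h2, ?_⟩, wanga_inj (fun p q e => ?_) E⟩
  · rintro _ ⟨p, hp, rfl⟩
    obtain ⟨a1, a2, a3, a4⟩ := h3 p hp
    rw [abs_le] at a3 a4
    simp only [Prod.map, shf, abs_le]
    exact ⟨by omega, a2, by omega, by omega⟩
  · simp only [shf, Prod.mk.injEq, add_left_inj] at e
    exact Prod.ext e.1 e.2

theorem WS.mor_lev (w : WS Γ Γ' h t) : (tc Γ h).Mor (gc Γ') (lev h t) := by
  rintro E ⟨F, R, h1, h2, h3⟩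
  refine ⟨⟨_ ∩ Γ', (wanga_fin h1 R fun a b f => t ^ a * f * t ^ b).inter_of_left _, inter_subset_right, ?_⟩,
    fun y => ((finite_Icc (-R) R).image fun k => (k + hv h (y * t ^ (-k)), y * t ^ (-k))).subset ?_⟩
  · rintro _ ⟨p, hp, rfl⟩
    obtain ⟨a1, a2, a3, a4⟩ := h3 p hp
    have e : (lev h t p.1)⁻¹ * lev h t p.2 =
        t ^ (hv h p.1.2 - p.1.1) * (p.1.2⁻¹ * p.2.2) * t ^ (p.2.1 - hv h p.2.2) := by
      simp only [lev]; group
    refine ⟨⟨_, _, _, a3, by rwa [abs_sub_comm], a2, e⟩, (w.mem _).2 ⟨?_, ?_⟩⟩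
    · change (lev h t p.1)⁻¹ * lev h t p.2 ∈ Γ
      rw [e]
      exact mul_mem (mul_mem (zpow_mem w.t_mem _) (h2 a2)) (zpow_mem w.t_mem _)
    · change hv h ((lev h t p.1)⁻¹ * lev h t p.2) = 0
      rw [hv_mul, hv_inv, w.hv_lev, w.hv_lev, a1, neg_add_cancel]
  · rintro ⟨m, x⟩ ⟨hx, rfl⟩
    have := abs_le.1 (h3 _ hx).2.2.1
    refine ⟨m - hv h x, ⟨by simp only at this ⊢; omega, by simp only at this ⊢; omega⟩, ?_⟩
    have e : lev h t (m, x) * t ^ (-(m - hv h x)) = x := by simp only [lev]; group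
    simp only [e, sub_add_cancel]

theorem WS.mor_inc (w : WS Γ Γ' h t) : (gc Γ').Mor (tc Γ h) fun y => (hv h y, y) := by
  rintro E ⟨F, h1, h2, h3⟩
  refine ⟨⟨F, 0, h1, h2.trans w.le, ?_⟩, wanga_inj (fun p q e => (Prod.mk.inj e).2) E⟩
  rintro _ ⟨p, hp, rfl⟩
  have := ((w.mem _).1 (h2 (h3 p hp))).2
  rw [hv_mul, hv_inv] at this
  exact ⟨by simp only [Prod.map]; omega, h3 p hp, by simp, by simp⟩

theorem WS.close_inc (w : WS Γ Γ' h t) : (tc Γ h).Close (tc Γ h) id ((fun y => (hv h y, y)) ∘ lev h t) := by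
  rintro E ⟨F, R, h1, h2, h3⟩
  refine ⟨_ ∩ Γ, R, (wanga_fin h1 R fun a b f => f * t ^ b).inter_of_left _, inter_subset_right, ?_⟩
  rintro _ ⟨p, hp, rfl⟩
  obtain ⟨a1, a2, a3, a4⟩ := h3 p hp
  have e : p.1.2⁻¹ * lev h t p.2 = (p.1.2⁻¹ * p.2.2) * t ^ (p.2.1 - hv h p.2.2) := by
    simp only [lev]; group
  refine ⟨a1.trans (w.hv_lev _).symm, ⟨⟨_, _, _, a3, by rwa [abs_sub_comm], a2, e⟩, ?_⟩, a3, ?_⟩
  · change p.1.2⁻¹ * lev h t p.2 ∈ Γ
    rw [e]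
    exact mul_mem (h2 a2) (zpow_mem w.t_mem _)
  · simpa using (abs_nonneg _).trans a3

theorem WS.mor_t (w : WS Γ Γ' h t) : (gc Γ').Mor (gc Γ') (· * t) := by
  refine mor_right t fun u hu => (w.mem _).2 ⟨mul_mem (mul_mem (inv_mem w.t_mem) (w.le hu)) w.t_mem, ?_⟩
  rw [hv_mul, hv_mul, hv_inv, ((w.mem _).1 hu).2]
  ring

theorem mor_tc_left (g : G) : (tc Γ h).Mor (tc Γ h) fun p => (p.1 + hv h g, g * p.2) := by
  rintro E ⟨F, R, h1, h2, h3⟩
  refine ⟨⟨F, R, h1, h2, ?_⟩, wanga_inj (fun p q e => ?_) E⟩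
  · rintro _ ⟨p, hp, rfl⟩
    obtain ⟨a1, a2, a3, a4⟩ := h3 p hp
    rw [abs_le] at a3 a4
    simp only [Prod.map, abs_le, hv_mul]
    exact ⟨by omega, by simpa [mul_assoc] using a2, by omega, by omega⟩
  · simp only [Prod.mk.injEq, add_left_inj, mul_right_inj] at e
    exact Prod.ext e.1 e.2

theorem mor_tc_right [Γ.Normal] (s : G) : (tc Γ h).Mor (tc Γ h) fun p => (p.1 + hv h s, p.2 * s) := by
  rintro E ⟨F, R, h1, h2, h3⟩
  refine ⟨⟨(fun f => s⁻¹ * f * s) '' F, R, h1.image _, ?_, ?_⟩, wanga_inj (fun p q e => ?_) E⟩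
  · rintro _ ⟨f, hf, rfl⟩
    exact Subgroup.Normal.conj_mem' inferInstance f (h2 hf) s
  · rintro _ ⟨p, hp, rfl⟩
    obtain ⟨a1, a2, a3, a4⟩ := h3 p hp
    rw [abs_le] at a3 a4
    simp only [Prod.map, abs_le, hv_mul]
    exact ⟨by omega, ⟨_, a2, by simp [mul_assoc]⟩, by omega, by omega⟩
  · simp only [Prod.mk.injEq, add_left_inj, mul_left_inj] at e
    exact Prod.ext e.1 e.2

theorem WS.close_right [Γ.Normal] (w : WS Γ Γ' h t) (s : G) : (tc Γ h).Close (gc Γ') ((· * s) ∘ lev h t)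
    (lev h t ∘ fun p => (p.1 + hv h s, p.2 * s)) := by
  rintro E ⟨F, R, h1, h2, h3⟩
  refine ⟨_ ∩ Γ', (wanga_fin h1 R fun a b f => s⁻¹ * (t ^ a * f) * s * t ^ b).inter_of_left _, inter_subset_right, ?_⟩
  rintro _ ⟨p, hp, rfl⟩
  obtain ⟨a1, a2, a3, a4⟩ := h3 p hp
  have e : (lev h t p.1 * s)⁻¹ * lev h t (p.2.1 + hv h s, p.2.2 * s) =
      s⁻¹ * (t ^ (hv h p.1.2 - p.1.1) * (p.1.2⁻¹ * p.2.2)) * s * t ^ (p.2.1 - hv h p.2.2) := by
    simp only [lev, hv_mul]; group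
  refine ⟨⟨_, _, _, a3, by rwa [abs_sub_comm], a2, e⟩, (w.mem _).2 ⟨?_, ?_⟩⟩
  · change (lev h t p.1 * s)⁻¹ * lev h t (p.2.1 + hv h s, p.2.2 * s) ∈ Γ
    rw [e]
    exact mul_mem (Subgroup.Normal.conj_mem' inferInstance _ (mul_mem (zpow_mem w.t_mem _) (h2 a2)) s)
      (zpow_mem w.t_mem _)
  · change hv h ((lev h t p.1 * s)⁻¹ * lev h t (p.2.1 + hv h s, p.2.2 * s)) = 0
    rw [hv_mul, hv_inv, hv_mul, w.hv_lev, w.hv_lev, a1, neg_add_cancel]

/-- shift of the level by `k` -/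
def wangbS (k : ℤ) (p : ℤ × G) : ℤ × G := (p.1 + k, p.2)

theorem wangb_map_map (k k' : ℤ) (l : List (ℤ × G)) : (l.map (wangbS k)).map (wangbS k') = l.map (wangbS (k + k')) := by
  rw [List.map_map]
  exact List.map_congr_left fun p _ => by simp [wangbS, add_assoc]

theorem wangb_map_zero (l : List (ℤ × G)) : l.map (wangbS 0) = l := by
  conv_rhs => rw [← List.map_id l]
  exact List.map_congr_left fun p _ => by simp [wangbS]

theorem wangb_pu_shf (e : List (ℤ × G) → A) (l : List (ℤ × G)) : pu shf e l = e (l.map (wangbS (-1))) := by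
  have hi : Function.Injective (shf : ℤ × G → ℤ × G) := fun p q e => by
    simp only [shf, Prod.mk.injEq, add_left_inj] at e
    exact Prod.ext e.1 e.2
  rw [← pu_apply_map hi e (l.map (wangbS (-1)))]
  congr 1
  exact ((wangb_map_map (-1) 1 l).trans (by rw [neg_add_cancel, wangb_map_zero])).symm

theorem wangb_isC {c : List (ℤ × G) → A} : (tc Γ h).IsC q c ↔ ∃ (F : Set G) (R : ℤ), F.Finite ∧ F ⊆ Γ ∧
    ∀ l, c l ≠ 0 → l.length = q + 1 ∧ (∀ x ∈ l, ∀ y ∈ l, x.1 = y.1 ∧ x.2⁻¹ * y.2 ∈ F) ∧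
      ∀ x ∈ l, |hv h x.2 - x.1| ≤ R := by
  constructor
  · rintro ⟨E, ⟨F, R, h1, h2, h3⟩, h4⟩
    exact ⟨F, R, h1, h2, fun l hl => ⟨(h4 l hl).1, fun x hx y hy =>
      ⟨(h3 _ ((h4 l hl).2 x hx y hy)).1, (h3 _ ((h4 l hl).2 x hx y hy)).2.1⟩,
      fun x hx => (h3 _ ((h4 l hl).2 x hx x hx)).2.2.1⟩⟩
  · rintro ⟨F, R, h1, h2, h3⟩
    exact ⟨{p | p.1.1 = p.2.1 ∧ p.1.2⁻¹ * p.2.2 ∈ F ∧ |hv h p.1.2 - p.1.1| ≤ R ∧ |hv h p.2.2 - p.2.1| ≤ R},
      ⟨F, R, h1, h2, fun p hp => hp⟩, fun l hl => ⟨(h3 l hl).1, fun x hx y hy =>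
        ⟨((h3 l hl).2.1 x hx y hy).1, ((h3 l hl).2.1 x hx y hy).2, (h3 l hl).2.2 x hx, (h3 l hl).2.2 y hy⟩⟩⟩

/-- `w (l.map shf⁻¹) = w l`, but the first coordinates on the support are bounded in terms of the second coordinates -/
theorem shf_inj {e : List (ℤ × G) → A} (he : (tc Γ h).IsC q e) (h0 : pu shf e - e = 0) : e = 0 := by
  obtain ⟨F, R, -, -, h3⟩ := wangb_isC.1 he
  funext l
  by_contra hl
  have key : ∀ n : ℕ, e (l.map (wangbS (-n))) = e l := by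
    intro n
    induction n with
    | zero => rw [Nat.cast_zero, neg_zero, wangb_map_zero]
    | succ n ih =>
      have := congrFun (sub_eq_zero.1 h0) (l.map (wangbS (-n)))
      rw [wangb_pu_shf, wangb_map_map, ih] at this
      rw [← this, Nat.cast_succ, neg_add]
  obtain ⟨x, hx⟩ := List.exists_mem_of_length_pos (l := l) (by rw [(h3 l hl).1]; omega)
  have h4 := (h3 l hl).2.2 x hx
  have h5 := (h3 _ ((key (2 * R + 1).toNat).trans_ne hl)).2.2 _ (List.mem_map_of_mem hx)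
  simp only [wangbS, abs_le] at h4 h5
  omega

/-- `c` is supported on lists `l.map (m, ·)` and `pu snd c l = ∑ᶠ m, c (l.map (m, ·))`;
`e (l.map (m, ·)) = -∑ᶠ m' ≤ m, c (l.map (m', ·))`, zero on all other lists -/
theorem ker_snd {c : List (ℤ × G) → A} (hc : (tc Γ h).IsC q c) (h0 : pu Prod.snd c = 0) :
    ∃ e, (tc Γ h).IsC q e ∧ pu shf e - e = c := by
  classical
  obtain ⟨F, R, h1, h2, h3⟩ := wangb_isC.1 hc
  have hfin : ∀ l : List (ℤ × G), (Function.support fun n : ℕ => c (l.map (wangbS (-n)))).Finite := by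
    rintro (_ | ⟨x, l⟩)
    · refine finite_empty.subset fun n hn => ?_
      simpa using (h3 _ hn).1
    · refine (finite_Iic (R + x.1 - hv h x.2).toNat).subset fun n hn => ?_
      have := (h3 _ hn).2.2 _ (List.mem_map_of_mem List.mem_cons_self)
      simp only [wangbS, abs_le] at this
      simp only [mem_Iic]
      omega
  refine ⟨fun l => -∑ᶠ n : ℕ, c (l.map (wangbS (-n))), wangb_isC.2 ⟨F, R, h1, h2, fun l hl => ?_⟩, funext fun l => ?_⟩
  · obtain ⟨n, hn⟩ : ∃ n : ℕ, c (l.map (wangbS (-n))) ≠ 0 := by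
      by_contra hno
      push Not at hno
      exact hl (by simp [hno])
    obtain ⟨a1, a2, a3⟩ := h3 _ hn
    have a2' : ∀ x ∈ l, ∀ y ∈ l, x.1 = y.1 ∧ x.2⁻¹ * y.2 ∈ F := fun x hx y hy => by
      simpa [wangbS] using a2 _ (List.mem_map_of_mem hx) _ (List.mem_map_of_mem hy)
    refine ⟨by simpa using a1, a2', fun x hx => ?_⟩
    have a4 := a3 _ (List.mem_map_of_mem hx)
    simp only [wangbS, abs_le] at a4 ⊢
    refine ⟨?_, by omega⟩
    by_contra hlt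
    apply hl
    have hinj : Function.Injective fun n : ℕ => l.map (wangbS (-(n : ℤ))) := fun n n' e => by
      have := List.map_inj_left.1 e x hx
      simp only [wangbS, Prod.mk.injEq] at this
      omega
    rw [neg_eq_zero, ← finsum_mem_range (f := c) hinj, finsum_mem_def]
    refine Eq.trans (finsum_congr fun i => ?_) (congrFun h0 (l.map Prod.snd))
    by_cases hi : i ∈ range fun n : ℕ => l.map (wangbS (-(n : ℤ)))
    · rw [indicator_of_mem hi]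
      obtain ⟨n, rfl⟩ := hi
      simp [mp, wangbS, Function.comp_def]
    · rw [indicator_of_notMem hi]
      by_contra hne
      have b1 : mp Prod.snd i (l.map Prod.snd) ≠ 0 := fun h' => hne (by rw [h', zero_smul])
      have b2 : c i ≠ 0 := fun h' => hne (by rw [h', smul_zero])
      rw [mp_ne_zero] at b1
      obtain ⟨y, hy, hxy⟩ := List.mem_map.1 (b1 ▸ List.mem_map_of_mem (f := Prod.snd) hx)
      have b3 := (h3 i b2).2.2 y hy
      rw [abs_le, hxy] at b3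
      refine hi ⟨(x.1 - y.1).toNat, ?_⟩
      have b4 : i = (i.map Prod.snd).map fun z => (y.1, z) := by
        rw [List.map_map]
        conv_lhs => rw [← List.map_id i]
        exact List.map_congr_left fun p hp => Prod.ext ((h3 i b2).2.1 p hp y hy).1 rfl
      rw [b4, ← b1, List.map_map]
      refine List.map_congr_left fun p hp => Prod.ext ?_ rfl
      have := (a2' p hp x hx).1
      simp only [wangbS, Function.comp]
      omega
  · rw [Pi.sub_apply, wangb_pu_shf]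
    simp only [wangb_map_map]
    have h5 : ∑ᶠ n : ℕ, c (l.map (wangbS (-n))) = c l + ∑ᶠ n : ℕ, c (l.map (wangbS (-1 + -n))) := by
      rw [← finsum_mem_univ, show (univ : Set ℕ) = insert 0 (range Nat.succ) by
        ext n; cases n <;> simp, finsum_mem_insert' _ (by simp) ((hfin l).subset inter_subset_right),
        finsum_mem_range Nat.succ_injective, Nat.cast_zero, neg_zero, wangb_map_zero]
      simp [add_comm]
    rw [h5]
    abel

/-- `c' l = c (l.map snd)` if all first coordinates of `l` equal the height of the first vertex, zero otherwise -/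
theorem snd_surj {c : List G → A} (hc : (gc Γ).IsC q c) : ∃ c', (tc Γ h).IsC q c' ∧ pu Prod.snd c' = c := by
  classical
  obtain ⟨F, h1, h2, h3⟩ := gc_isC.1 hc
  obtain ⟨R, hR⟩ := (h1.image fun g => |hv h g|).bddAbove
  let s : List G → List (ℤ × G) := fun l => l.map fun y => (hv h (l.headD 1), y)
  have hs : ∀ l, (s l).map Prod.snd = l := fun l => by simp [s, Function.comp_def]
  refine ⟨fun i => if i = s (i.map Prod.snd) then c (i.map Prod.snd) else 0,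
    wangb_isC.2 ⟨F, R, h1, h2, fun i hi => ?_⟩, funext fun l => ?_⟩
  · obtain ⟨e, hi'⟩ := ite_ne_right_iff.1 hi
    generalize i.map Prod.snd = l at e hi'
    subst e
    obtain ⟨a1, a2⟩ := h3 l hi'
    refine ⟨by simpa [s] using a1, fun x hx y hy => ?_, fun x hx => ?_⟩
    · obtain ⟨x', hx', rfl⟩ := List.mem_map.1 hx
      obtain ⟨y', hy', rfl⟩ := List.mem_map.1 hy
      exact ⟨rfl, a2 _ hx' _ hy'⟩
    · obtain ⟨x', hx', rfl⟩ := List.mem_map.1 hx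
      rcases l with _ | ⟨y, l⟩
      · cases hx'
      have := hR ⟨_, a2 y List.mem_cons_self x' hx', rfl⟩
      simp only [hv_mul, hv_inv] at this
      simpa [sub_eq_neg_add] using this
  · refine (finsum_eq_single _ (s l) fun i hi => ?_).trans ?_
    · by_cases e : l = i.map Prod.snd
      · simp only
        rw [if_neg (e ▸ hi), smul_zero]
      · rw [not_not.1 (mt mp_ne_zero.1 e), zero_smul]
    · simp [mp, hs]

variable {c c' e e' : List G → A}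

theorem Wd.ex (hc : (gc Γ).IsZ (q + 1) c) : ∃ e, Wd Γ h t q c e := by
  obtain ⟨c', h1, rfl⟩ := snd_surj (h := h) hc.1
  obtain ⟨e', h2, h3⟩ := ker_snd h1.dd (by rw [← h1.dd_pu mor_snd, hc.2])
  exact ⟨_, c', e', h1, h2, rfl, h3.symm, rfl⟩

theorem wangc_cyc {c' e' : List (ℤ × G) → A} (h1 : (tc Γ h).IsC (q + 1) c') (h2 : (tc Γ h).IsC q e')
    (h3 : dd c' = pu shf e' - e') : (tc Γ h).IsZ q e' := by
  refine ⟨h2, shf_inj (((tc Γ h).ker_bd q).isC h2) ?_⟩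
  rw [← h2.dd_pu mor_shf, ← (h2.pu mor_shf).dd_sub h2, ← h3, h1.dd_dd]

theorem wangc_snd_shf {e' : List (ℤ × G) → A} (h2 : (tc Γ h).IsC q e') : pu Prod.snd (pu shf e' - e') = 0 := by
  rw [(h2.pu mor_shf).pu_sub h2 mor_snd, h2.pu_pu mor_shf mor_snd]
  exact sub_self _

theorem wangc_lev_shf (w : WS Γ Γ' h t) {e' : List (ℤ × G) → A} (h2 : (tc Γ h).IsC q e') :
    pu (lev h t) (pu shf e') = pu (· * t) (pu (lev h t) e') := by
  rw [h2.pu_pu mor_shf w.mor_lev, h2.pu_pu w.mor_lev w.mor_t]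
  congr 1
  funext p
  simp only [Function.comp, lev, shf]
  group

theorem wangc_inc (w : WS Γ Γ' h t) {x : List (ℤ × G) → A} (hx : (tc Γ h).IsZ q x) :
    (tc Γ h).IsB q (pu (fun y => (hv h y, y)) (pu (lev h t) x) - x) := by
  have := w.close_inc.isB (Crs.Mor.id _) (w.mor_lev.comp w.mor_inc) hx
  rwa [pu_id, ← hx.1.pu_pu w.mor_lev w.mor_inc] at this

/-- `shf_inj` for `dd e'`; `lev ∘ shf = (· * t) ∘ lev` -/
theorem Wd.isZ (w : WS Γ Γ' h t) (hd : Wd Γ h t q c e) :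
    (gc Γ).IsZ (q + 1) c ∧ (gc Γ').IsZ q e ∧ (gc Γ').IsB q (pu (· * t) e - e) := by
  obtain ⟨c', e', h1, h2, rfl, h3, rfl⟩ := hd
  refine ⟨⟨h1.pu mor_snd, ?_⟩, (wangc_cyc h1 h2 h3).pu w.mor_lev, ?_⟩
  · rw [h1.dd_pu mor_snd, h3, wangc_snd_shf h2]
  · rw [← wangc_lev_shf w h2, ← (h2.pu mor_shf).pu_sub h2 w.mor_lev, ← h3]
    exact Crs.IsB.pu ⟨c', h1, rfl⟩ w.mor_lev

theorem Wd.sub (w : WS Γ Γ' h t) (hd : Wd Γ h t q c e) (hd' : Wd Γ h t q c' e') : Wd Γ h t q (c - c') (e - e') := by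
  obtain ⟨c₁, e₁, h1, h2, rfl, h3, rfl⟩ := hd
  obtain ⟨c₂, e₂, h1', h2', rfl, h3', rfl⟩ := hd'
  refine ⟨c₁ - c₂, e₁ - e₂, h1.sub h1', h2.sub h2', h1.pu_sub h1' mor_snd, ?_, h2.pu_sub h2' w.mor_lev⟩
  rw [h1.dd_sub h1', h3, h3', h2.pu_sub h2' mor_shf]
  abel

theorem Wd.map (w : WS Γ Γ' h t) (hd : Wd Γ h t q c e) (φ : A →+ A') : Wd Γ h t q (φ ∘ c) (φ ∘ e) := by
  obtain ⟨c', e', h1, h2, rfl, h3, rfl⟩ := hd
  refine ⟨φ ∘ c', φ ∘ e', h1.map φ, h2.map φ, h1.pu_map mor_snd φ, ?_, h2.pu_map w.mor_lev φ⟩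
  rw [h1.dd_map, h3, h2.pu_map mor_shf]
  funext l
  simp

theorem Wd.smul (w : WS Γ Γ' h t) (hd : Wd Γ h t q c e) (m : ℤ) : Wd Γ h t q (m • c) (m • e) := by
  obtain ⟨c', e', h1, h2, rfl, h3, rfl⟩ := hd
  refine ⟨m • c', m • e', h1.smul m, h2.smul m, h1.pu_smul mor_snd m, ?_, h2.pu_smul w.mor_lev m⟩
  rw [h1.dd_smul, h3, h2.pu_smul mor_shf, smul_sub]

theorem wangc_nat {c' e' : List (ℤ × G) → A} (h1 : (tc Γ h).IsC (q + 1) c') (h2 : (tc Γ h).IsC q e')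
    (h3 : dd c' = pu shf e' - e') {f : ℤ × G → ℤ × G} (hf : (tc Γ h).Mor (tc Γ h) f) (hs : f ∘ shf = shf ∘ f) :
    dd (pu f c') = pu shf (pu f e') - pu f e' := by
  rw [h1.dd_pu hf, h3, (h2.pu mor_shf).pu_sub h2 hf, h2.pu_pu mor_shf hf, h2.pu_pu hf mor_shf, hs]

theorem Wd.left (w : WS Γ Γ' h t) (hd : Wd Γ h t q c e) (g : G) : Wd Γ h t q (pu (g * ·) c) (pu (g * ·) e) := by
  obtain ⟨c', e', h1, h2, rfl, h3, rfl⟩ := hd
  have hf := mor_tc_left (Γ := Γ) (h := h) g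
  refine ⟨_, _, h1.pu hf, h2.pu hf, ?_, wangc_nat h1 h2 h3 hf ?_, ?_⟩
  · rw [h1.pu_pu hf mor_snd, h1.pu_pu mor_snd (mor_left Γ g)]
    rfl
  · funext p
    simp only [Function.comp, shf, add_right_comm]
  · rw [h2.pu_pu hf w.mor_lev, h2.pu_pu w.mor_lev (mor_left Γ' g)]
    congr 1
    funext p
    simp only [Function.comp, lev, hv_mul]
    group

theorem Wd.right [Γ.Normal] [Γ'.Normal] (w : WS Γ Γ' h t) (hd : Wd Γ h t q c e) (s : G) :
    ∃ e', Wd Γ h t q (pu (· * s) c) e' ∧ (gc Γ').IsB q (e' - pu (· * s) e) := by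
  obtain ⟨c', e', h1, h2, rfl, h3, rfl⟩ := hd
  have hf := mor_tc_right (Γ := Γ) (h := h) s
  refine ⟨_, ⟨_, _, h1.pu hf, h2.pu hf, ?_, wangc_nat h1 h2 h3 hf ?_, rfl⟩, ?_⟩
  · rw [h1.pu_pu hf mor_snd, h1.pu_pu mor_snd (mor_right' Γ s)]
    rfl
  · funext p
    simp only [Function.comp, shf, add_right_comm]
  · rw [h2.pu_pu hf w.mor_lev, h2.pu_pu w.mor_lev (mor_right' Γ' s)]
    exact (w.close_right s).isB (w.mor_lev.comp (mor_right' Γ' s)) (hf.comp w.mor_lev) (wangc_cyc h1 h2 h3)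

/-- `c = dd b`, lift `b` to `b'`; `c' - dd b' = pu shf u - u`, so `e' = dd u` (`shf_inj`) -/
theorem Wd.isB (w : WS Γ Γ' h t) (hd : Wd Γ h t q c e) (hc : (gc Γ).IsB (q + 1) c) : (gc Γ').IsB q e := by
  obtain ⟨c', e', h1, h2, rfl, h3, rfl⟩ := hd
  obtain ⟨b, hb, hb'⟩ := hc
  obtain ⟨b', h4, rfl⟩ := snd_surj (h := h) hb
  obtain ⟨u, h5, h6⟩ := ker_snd (h1.sub h4.dd) (by rw [h1.pu_sub h4.dd mor_snd, ← h4.dd_pu mor_snd, hb', sub_self])
  have h7 := congrArg dd h6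
  rw [(h5.pu mor_shf).dd_sub h5, h5.dd_pu mor_shf, h1.dd_sub h4.dd, h4.dd_dd, sub_zero, h3] at h7
  have h8 : e' - dd u = 0 := shf_inj (h2.sub h5.dd) (by
    rw [h2.pu_sub h5.dd mor_shf, sub_sub_sub_comm, h7, sub_self])
  exact Crs.IsB.pu ⟨u, h5, (sub_eq_zero.1 h8).symm⟩ w.mor_lev

/-- `e' ~ inc (lev e') ~ 0`, `e' = dd b`; the cycle `x = c' - (pu shf b - b)` projects to `c` and is homologous to `inc (lev x)` -/
theorem Wd.exact (w : WS Γ Γ' h t) (hd : Wd Γ h t q c e) (he : (gc Γ').IsB q e) :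
    ∃ c', (gc Γ').IsZ (q + 1) c' ∧ (gc Γ).IsB (q + 1) (c - c') := by
  obtain ⟨c', e', h1, h2, rfl, h3, rfl⟩ := hd
  obtain ⟨b, hb, rfl⟩ := (wangc_inc w (wangc_cyc h1 h2 h3)).symm.of_sub (he.pu w.mor_inc)
  have h4 := (hb.pu mor_shf).sub hb
  have hx : (tc Γ h).IsZ (q + 1) (c' - (pu shf b - b)) :=
    ⟨h1.sub h4, by rw [h1.dd_sub h4, (hb.pu mor_shf).dd_sub hb, hb.dd_pu mor_shf, h3, sub_self]⟩
  refine ⟨_, hx.pu w.mor_lev, Crs.IsB.symm ?_⟩
  have h5 := (wangc_inc w hx).pu_sub ((hx.1.pu w.mor_lev).pu w.mor_inc) hx.1 mor_snd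
  rw [(hx.1.pu w.mor_lev).pu_pu w.mor_inc mor_snd, h1.pu_sub h4 mor_snd, wangc_snd_shf hb, sub_zero] at h5
  exact (congrArg (fun z => (gc Γ).IsB (q + 1) (z - pu Prod.snd c')) (pu_id _)).mp h5

/-- `e' = inc e`; `pu shf e' ~ inc (lev (shf e')) = inc (e * t) ~ e'`, so `pu shf e' - e' = dd c'` -/
theorem Wd.surj (w : WS Γ Γ' h t) (he : (gc Γ').IsZ q e) (ht : (gc Γ').IsB q (pu (· * t) e - e)) : ∃ c, Wd Γ h t q c e := by
  have h1 := he.pu w.mor_inc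
  have h2 : pu (lev h t) (pu (fun y => (hv h y, y)) e) = e := by
    rw [he.1.pu_pu w.mor_inc w.mor_lev]
    convert pu_id e using 2
    funext y
    simp [lev]
  have h3 := (wangc_inc w (h1.pu mor_shf)).symm
  rw [wangc_lev_shf w h1.1, h2] at h3
  obtain ⟨c', h4, h5⟩ := h3.trans (ht.pu_sub (he.1.pu w.mor_t) he.1 w.mor_inc)
  exact ⟨_, c', _, h4, h1.1, rfl, h5, h2⟩

end Crest.Agent.R182
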