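import Crest.Agent.R182.E.Cur

/-! R182/E: sums of translates of a chain and signed coset sums. -/

set_option autoImplicit false
set_option linter.unusedVariables false
set_option linter.unusedSectionVars false
open Set Filter Topology MeasureTheory Crest.GroupTheory
open scoped Pointwise commutatorElement

noncomputable section
namespace Crest.Agent.R182

variable {G A : Type} [Group G] [AddCommGroup A] {L L' : Subgroup G} {q : ℕ} {w w' : List G → ℤ} {a a' : G → A}
  {ε : G →* ℤˣ}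

theorem FinC.mono (h : FinC L a) (hle : L' ≤ L) : FinC L' a := by
  exact fun g => (h g).subset fun u hu => ⟨hle hu.1, hu.2⟩

/-- `L'` is a finite union of cosets `v * (L ⊓ L')` -/
theorem FinC.up (h : FinC L a) (hi : L.relIndex L' ≠ 0) : FinC L' a := by
  intro g
  have : Finite (L' ⧸ L.subgroupOf L') := Nat.finite_of_card_ne_zero hi
  refine (finite_iUnion fun j : L' ⧸ L.subgroupOf L' =>
    (h (g * (j.out : L'))).image fun v => ((j.out : L') : G) * v).subset fun u hu => ?_
  have h1 := QuotientGroup.eq.1 (QuotientGroup.out_eq' ((⟨u, hu.1⟩ : L') : L' ⧸ L.subgroupOf L'))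
  rw [Subgroup.mem_subgroupOf] at h1
  exact mem_iUnion.2 ⟨((⟨u, hu.1⟩ : L') : L' ⧸ L.subgroupOf L'), _, ⟨h1, by simpa [mul_assoc] using hu.2⟩, by simp⟩

theorem FinC.of_supp {A' : Type} [AddCommGroup A'] (h : FinC L a) {b : G → A'} (hb : ∀ g, b g ≠ 0 → a g ≠ 0) : FinC L b := by
  exact fun g => (h g).subset fun u hu => ⟨hu.1, hb _ hu.2⟩

theorem FinC.add (h : FinC L a) (h' : FinC L a') : FinC L (a + a') := by
  refine fun g => ((h g).union (h' g)).subset fun u hu => ?_
  by_contra hn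
  simp only [mem_union, mem_ofPred_eq, hu.1, true_and, not_or, not_not] at hn
  exact hu.2 (by simp [hn.1, hn.2])

theorem FinC.sub (h : FinC L a) (h' : FinC L a') : FinC L (a - a') := by
  rw [sub_eq_add_neg]
  exact h.add (h'.of_supp fun g hg => by simpa using hg)

theorem FinC.smul (h : FinC L a) (m : ℤ) : FinC L (m • a) := by
  exact h.of_supp fun g hg h0 => hg (by simp [h0])

theorem FinC.left (h : FinC L a) (g : G) : FinC L fun x => a (g * x) := by
  exact fun x => by simpa only [mul_assoc] using h (g * x)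

theorem FinC.right (h : FinC L a) (t : G) : FinC (cj t L) fun x => a (x * t⁻¹) := by
  refine fun g => ((h (g * t⁻¹)).image fun v => t⁻¹ * v * t).subset fun u hu => ?_
  exact ⟨t * u * t⁻¹, ⟨mem_cj.1 hu.1, by simpa [mul_assoc] using hu.2⟩, by simp [mul_assoc]⟩

theorem Zc_finite (ho : On L w) (hw : (gc L).IsC q w) (ha : FinC L a) (l : List G) :
    (Function.support fun g => w (l.map (g⁻¹ * ·)) • a g).Finite := by
  obtain ⟨F, -, -, hF⟩ := gc_isC.1 hw
  have h1 : ∀ g, w (l.map (g⁻¹ * ·)) • a g ≠ 0 → w (l.map (g⁻¹ * ·)) ≠ 0 := fun g hg h0 => hg (by rw [h0, zero_smul])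
  cases l with
  | nil => exact finite_empty.subset fun g hg => by simpa using (hF _ (h1 g hg)).1
  | cons x l =>
    refine ((ha x).image fun u => x * u).subset fun g hg => ⟨x⁻¹ * g, ⟨?_, fun h0 => hg ?_⟩, by simp⟩
    · simpa using L.inv_mem (ho _ (h1 g hg) (g⁻¹ * x) (by simp))
    · rw [mul_inv_cancel_left] at h0
      simp only [h0, smul_zero]

theorem zca_isC {B : Type} [AddCommGroup B] (hw : (gc L).IsC q w) {c : List G → B}
    (hc : ∀ l, c l ≠ 0 → ∃ g : G, w (l.map (g⁻¹ * ·)) ≠ 0) : (gc L).IsC q c := by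
  obtain ⟨F, h1, h2, hF⟩ := gc_isC.1 hw
  refine gc_isC.2 ⟨F, h1, h2, fun l hl => ?_⟩
  obtain ⟨g, hg⟩ := hc l hl
  obtain ⟨h3, h4⟩ := hF _ hg
  exact ⟨by simpa using h3, fun x hx y hy => by
    simpa [mul_assoc] using h4 _ (List.mem_map_of_mem hx) _ (List.mem_map_of_mem hy)⟩

theorem Zc_isC (hw : (gc L).IsC q w) (a : G → A) : (gc L).IsC q (Zc w a) := by
  refine zca_isC hw fun l hl => ?_
  by_contra hn
  push Not at hn
  exact hl (finsum_eq_zero_of_forall_eq_zero fun g => by rw [hn g, zero_smul])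

theorem zca_left {B : Type} [AddCommGroup B] (g : G) (c : List G → B) :
    pu (g * ·) c = fun l => c (l.map (g⁻¹ * ·)) := pu_equiv (Equiv.mulLeft g) c

/-- exchange two finite sums; `pu_equiv` and `IsC.dd_pu` for the left translations (or `bd'_map`) -/
theorem dd_Zc (ho : On L w) (hw : (gc L).IsC q w) (ha : FinC L a) : dd (Zc w a) = Zc (dd w) a := by
  let c : List G → (G →₀ A) := fun l => Finsupp.ofSupportFinite _ (Zc_finite ho hw ha l)
  have hc : ∀ l g, c l g = w (l.map (g⁻¹ * ·)) • a g := fun l g => rfl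
  let φ : (G →₀ A) →+ A := Finsupp.liftAddHom fun _ => AddMonoidHom.id A
  have hφ : ∀ v, φ v = ∑ᶠ g, v g := fun v => (finsum_eq_sum_of_support_subset _ (by simp)).symm
  have h1 : (gc L).IsC q c := zca_isC hw fun l hl => by
    by_contra hn
    push Not at hn
    exact hl (Finsupp.ext fun g => by rw [hc, hn g, zero_smul, Finsupp.zero_apply])
  have h2 : Zc w a = φ ∘ c := funext fun l => (hφ (c l)).symm
  rw [h2, h1.dd_map]
  funext l
  rw [Function.comp_apply, hφ]
  refine finsum_congr fun g => ?_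
  have h3 := congrFun (h1.dd_map (Finsupp.applyAddHom g)) l
  have h4 := congrFun ((hw.pu (mor_left L g)).dd_map ((smulAddHom ℤ A).flip (a g))) l
  rw [hw.dd_pu (mor_left L g), zca_left, zca_left] at h4
  exact h3.symm.trans h4

theorem On.dd (ho : On L w) : On L (dd w) := by
  intro l hl x hx
  obtain ⟨l', h1, h2⟩ := op_ne_zero hl
  exact ho l' h1 x ((bd'_ne_zero h2).2.2 x hx)

theorem Zc_isZ (ho : On L w) (hw : (gc L).IsZ q w) (ha : FinC L a) : (gc L).IsZ q (Zc w a) := by
  refine ⟨Zc_isC hw.1 a, ?_⟩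
  rw [dd_Zc ho hw.1 ha, hw.2]
  funext l
  simp [Zc]

theorem Zc_sub_left (ho : On L w) (hw : (gc L).IsC q w) (ho' : On L w') (hw' : (gc L).IsC q w') (ha : FinC L a) :
    Zc (w - w') a = Zc w a - Zc w' a := by
  funext l
  simp only [Zc, Pi.sub_apply, sub_smul]
  exact finsum_sub_distrib (Zc_finite ho hw ha l) (Zc_finite ho' hw' ha l)

theorem Zc_smul_left (w : List G → ℤ) (m : ℤ) (a : G → A) : Zc (m • w) a = Zc w (m • a) := by
  funext l
  simp only [Zc, Pi.smul_apply, smul_eq_mul, smul_smul, mul_comm]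

theorem Zc_sub (ho : On L w) (hw : (gc L).IsC q w) (ha : FinC L a) (ha' : FinC L a') : Zc w (a - a') = Zc w a - Zc w a' := by
  funext l
  simp only [Zc, Pi.sub_apply, smul_sub]
  exact finsum_sub_distrib (Zc_finite ho hw ha l) (Zc_finite ho hw ha' l)

theorem Zc_map {A' : Type} [AddCommGroup A'] (ho : On L w) (hw : (gc L).IsC q w) (ha : FinC L a) (φ : A →+ A') :
    Zc w (φ ∘ a) = φ ∘ Zc w a := by
  funext l
  simp only [Zc, Function.comp_apply, φ.map_finsum (Zc_finite ho hw ha l), map_zsmul]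

theorem Zc_smul (ho : On L w) (hw : (gc L).IsC q w) (ha : FinC L a) (m : ℤ) : Zc w (m • a) = m • Zc w a := by
  exact Zc_map ho hw ha (smulAddHom ℤ A m)

theorem pu_left_Zc (w : List G → ℤ) (a : G → A) (g : G) : pu (g * ·) (Zc w a) = Zc w fun x => a (g⁻¹ * x) := by
  funext l
  rw [zca_left]
  simp only [Zc]
  symm
  rw [← finsum_comp_equiv (Equiv.mulLeft g)]
  refine finsum_congr fun x => ?_
  simp [Function.comp_def, mul_assoc]

theorem pu_right_Zc (w : List G → ℤ) (a : G → A) (t : G) :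
    pu (· * t) (Zc w a) = Zc (pu (fun x => t⁻¹ * x * t) w) fun x => a (x * t⁻¹) := by
  have e1 : pu (· * t) (Zc w a) = fun l => Zc w a (l.map (· * t⁻¹)) := pu_equiv (Equiv.mulRight t) _
  have e2 : pu (fun x => t⁻¹ * x * t) w = fun l => w (l.map fun x => t⁻¹⁻¹ * (x * t⁻¹)) :=
    pu_equiv ((Equiv.mulLeft t⁻¹).trans (Equiv.mulRight t)) w
  funext l
  rw [e1, e2]
  simp only [Zc]
  symm
  rw [← finsum_comp_equiv (Equiv.mulRight t)]
  refine finsum_congr fun x => ?_
  simp [Function.comp_def, mul_assoc]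

theorem zcb_smul_finsum {ι : Type} (e : ℤˣ) (f : ι → A) : (e : ℤ) • ∑ᶠ i, f i = ∑ᶠ i, (e : ℤ) • f i := by
  rcases Int.units_eq_one_or e with rfl | rfl
  · simp
  · simp [finsum_neg_distrib]

theorem zcb_sq (e : ℤˣ) (x : A) : (e : ℤ) • (e : ℤ) • x = x := by
  rcases Int.units_eq_one_or e with rfl | rfl <;> simp

theorem zcb_fin (ha : FinC L a) (ε : G →* ℤˣ) (g : G) :
    Function.HasFiniteSupport fun u : L => (ε u : ℤ) • a (g * u) := by
  refine ((ha g).preimage Subtype.val_injective.injOn).subset fun u hu => ⟨u.2, fun h0 => hu ?_⟩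
  simp only [h0, smul_zero]

theorem ssum_right (a : G → A) (g : G) {u : G} (hu : u ∈ L) : ssum L ε a (g * u) = (ε u : ℤ) • ssum L ε a g := by
  rw [ssum, ssum, zcb_smul_finsum]
  refine finsum_eq_of_bijective _ (Equiv.mulLeft (⟨u, hu⟩ : L)).bijective fun v => ?_
  simp only [Equiv.coe_mulLeft, Subgroup.coe_mul, map_mul, Units.val_mul, mul_smul, zcb_sq, mul_assoc]

theorem ssum_left (a : G → A) (g x : G) : ssum L ε (fun x => a (g * x)) x = ssum L ε a (g * x) := by
  simp only [ssum, mul_assoc]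

theorem ssum_sub (ha : FinC L a) (ha' : FinC L a') : ssum L ε (a - a') = ssum L ε a - ssum L ε a' := by
  funext g
  simp only [ssum, Pi.sub_apply, smul_sub]
  exact finsum_sub_distrib (zcb_fin ha ε g) (zcb_fin ha' ε g)

theorem ssum_map {A' : Type} [AddCommGroup A'] (ha : FinC L a) (φ : A →+ A') : ssum L ε (φ ∘ a) = φ ∘ ssum L ε a := by
  funext g
  simp only [ssum, Function.comp_apply, φ.map_finsum (zcb_fin ha ε g), map_zsmul]

theorem ssum_smul (ha : FinC L a) (m : ℤ) : ssum L ε (m • a) = m • ssum L ε a := by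
  funext g
  simp only [ssum, Pi.smul_apply, smul_finsum' m (zcb_fin ha ε g), smul_comm m]

theorem ssum_cj (a : G → A) (t g : G) : ssum (cj t L) ε (fun x => a (x * t⁻¹)) g = ssum L ε a (g * t⁻¹) := by
  refine finsum_eq_of_bijective (fun u : cj t L => (⟨t * u * t⁻¹, u.2⟩ : L)) ⟨fun u v e => ?_, fun v => ?_⟩ fun u => ?_
  · have := congrArg Subtype.val e
    exact Subtype.ext (by simpa using this)
  · refine ⟨⟨t⁻¹ * v * t, ?_⟩, Subtype.ext (by simp [mul_assoc])⟩
    show t * (t⁻¹ * v * t) * t⁻¹ ∈ L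
    simp [mul_assoc]
  · have e : ε (t * u * t⁻¹) = ε u := by
      rw [map_mul, map_mul, map_inv, mul_right_comm, mul_inv_cancel, one_mul]
    simp only [e]
    simp only [mul_assoc, inv_mul_cancel_left]

/-- `L' ≃ (L' ⧸ L.subgroupOf L') × L.subgroupOf L'` (`Subgroup.groupEquivQuotientProdSubgroup`) -/
theorem ssum_tower (hle : L ≤ L') (hi : L.relIndex L' ≠ 0) (ha : FinC L a) : ∃ s : Finset G, s.card = L.relIndex L' ∧
    (∀ v ∈ s, v ∈ L') ∧ ∀ g, ssum L' ε a g = ∑ v ∈ s, (ε v : ℤ) • ssum L ε a (g * v) := by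
  classical
  have : Finite (L' ⧸ L.subgroupOf L') := Nat.finite_of_card_ne_zero hi
  have := Fintype.ofFinite (L' ⧸ L.subgroupOf L')
  have hinj : Function.Injective fun j : L' ⧸ L.subgroupOf L' => (j.out : G) :=
    Subtype.val_injective.comp Quotient.out_injective
  refine ⟨Finset.univ.image fun j : L' ⧸ L.subgroupOf L' => (j.out : G), ?_, ?_, fun g => ?_⟩
  · rw [Finset.card_image_of_injective _ hinj, Finset.card_univ, ← Nat.card_eq_fintype_card]
    rfl
  · intro v hv
    obtain ⟨j, -, rfl⟩ := Finset.mem_image.1 hv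
    exact j.out.2
  · have hb : Function.Bijective fun p : (L' ⧸ L.subgroupOf L') × L => p.1.out * (⟨p.2, hle p.2.2⟩ : L') := by
      constructor
      · rintro ⟨i, u⟩ ⟨j, v⟩ e
        have e1 : i = j := by
          have h1 := congrArg (fun x : L' => (x : L' ⧸ L.subgroupOf L')) e
          simp only at h1
          have hu : (⟨u, hle u.2⟩ : L') ∈ L.subgroupOf L' := u.2
          have hv : (⟨v, hle v.2⟩ : L') ∈ L.subgroupOf L' := v.2
          rwa [QuotientGroup.mk_mul_of_mem _ hu, QuotientGroup.mk_mul_of_mem _ hv, QuotientGroup.out_eq',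
            QuotientGroup.out_eq'] at h1
        subst e1
        have h2 := congrArg Subtype.val (mul_left_cancel e)
        exact Prod.ext rfl (Subtype.ext h2)
      · intro x
        have h1 : (x : L' ⧸ L.subgroupOf L').out⁻¹ * x ∈ L.subgroupOf L' :=
          QuotientGroup.eq.1 (QuotientGroup.out_eq' _)
        exact ⟨(x, ⟨_, Subgroup.mem_subgroupOf.1 h1⟩), Subtype.ext (by simp)⟩
    rw [Finset.sum_image fun i _ j _ e => hinj e, ssum, ← finsum_comp _ hb,
      finsum_curry _ ((zcb_fin (ha.up hi) ε g).preimage hb.1.injOn), finsum_eq_sum_of_fintype]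
    refine Finset.sum_congr rfl fun j _ => ?_
    rw [ssum, zcb_smul_finsum]
    refine finsum_congr fun v => ?_
    simp only [Subgroup.coe_mul, map_mul, Units.val_mul, mul_smul, mul_assoc]

theorem ssum_up_zero (hle : L ≤ L') (hi : L.relIndex L' ≠ 0) (ha : FinC L a) (h0 : ssum L ε a = 0) : ssum L' ε a = 0 := by
  obtain ⟨s, -, -, hs⟩ := ssum_tower (ε := ε) hle hi ha
  funext g
  simp [hs, h0]

theorem ssum_up_eq (hle : L ≤ L') (hi : L.relIndex L' ≠ 0) (ha : FinC L a)
    (hf : ∀ g, ∀ u ∈ L', ssum L ε a (g * u) = (ε u : ℤ) • ssum L ε a g) :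
    ssum L' ε a = (L.relIndex L' : ℤ) • ssum L ε a := by
  obtain ⟨s, hc, hm, hs⟩ := ssum_tower (ε := ε) hle hi ha
  funext g
  rw [hs, Finset.sum_congr rfl fun v hv => by rw [hf g v (hm v hv), zcb_sq], Finset.sum_const, hc, Pi.smul_apply,
    natCast_zsmul]

/-- `a g = f g` if `g = (g : G ⧸ L).out`, zero otherwise -/
theorem exists_ssum_eq {f : G → A} (hf : ∀ g, ∀ u ∈ L, f (g * u) = (ε u : ℤ) • f g) : ∃ a, FinC L a ∧ ssum L ε a = f := by
  classical
  have key : ∀ g : G, ∀ u ∈ L, g * u = ((g * u : G) : G ⧸ L).out → u = g⁻¹ * (g : G ⧸ L).out := fun g u hu e => by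
    rw [QuotientGroup.mk_mul_of_mem _ hu] at e
    rw [← e, inv_mul_cancel_left]
  refine ⟨fun g => if g = (g : G ⧸ L).out then f g else 0, fun g => ?_, funext fun g => ?_⟩
  · refine (finite_singleton (g⁻¹ * (g : G ⧸ L).out)).subset fun u hu => key g u hu.1 ?_
    by_contra h
    exact hu.2 (if_neg h)
  · have h1 : g⁻¹ * (g : G ⧸ L).out ∈ L := QuotientGroup.eq.1 (QuotientGroup.out_eq' _).symm
    rw [ssum, finsum_eq_single _ (⟨_, h1⟩ : L)]
    · rw [if_pos, hf g _ h1, zcb_sq]
      rw [QuotientGroup.mk_mul_of_mem _ h1, mul_inv_cancel_left]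
    · intro u hu
      rw [if_neg fun e => hu (Subtype.ext (key g u u.2 e)), smul_zero]

end Crest.Agent.R182
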